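import Vale.Agent.P193.Bh.Group.Depths.Long

/-!
# P193: boxes of all lengths from slots
-/

namespace Vale.Agent.P193.Bh.Depths

open TopologicalSpace
open Vale.Agent.P193.Fp
open Vale.Agent.P193.Bh.V (Seq Pre Inc swp sw pre_app thompson swp_mem)

variable {Y Q G : Type} [TopologicalSpace Y] [Group Q] [MulAction Q Y] [ContinuousConstSMul Q Y]
  [Group G] (σ : SlotSystem Y Q G)

/-- A valid box whose words are long after `k` further letters. -/
def Ok (k : ℕ) (U : Clopens Y) (g : Q) (p q : List Bool) : Prop :=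
  3 ≤ p.length + k ∧ 3 ≤ q.length + k ∧ Box.Valid (⟨U, g, p, q⟩ : Box Y Q)

theorem Ok.child {k : ℕ} {U : Clopens Y} {g : Q} {p q : List Bool} (h : Ok (k + 1) U g p q)
    (e : Bool) : Ok k U g (p ++ [e]) (q ++ [e]) :=
  ⟨by have := h.1; simp; omega, by have := h.2.1; simp; omega, valid_child h.2.2 e⟩

theorem Ok.good {U : Clopens Y} {g : Q} {p q : List Bool} (h : Ok 0 U g p q) : Good U g p q := h

/-- The exchange, expanded by `k` letters. -/
noncomputable def elX : ℕ → Clopens Y → Q → List Bool → List Bool → Gr σ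
  | 0, U, g, p, q => el3 σ U g p q
  | k + 1, U, g, p, q =>
    elX k U g (p ++ [false]) (q ++ [false]) * elX k U g (p ++ [true]) (q ++ [true])

theorem supp_child_subset (U : Clopens Y) (g : Q) (p q : List Bool) (e : Bool) :
    Box.supp (⟨U, g, p ++ [e], q ++ [e]⟩ : Box Y Q) ⊆ Box.supp (⟨U, g, p, q⟩ : Box Y Q) :=
  Set.union_subset_union (cyl_append_subset _ _ _) (cyl_append_subset _ _ _)

theorem elX_comm : ∀ k {U U' : Clopens Y} {g g' : Q} {p q p' q' : List Bool},
    Ok k U g p q → Ok k U' g' p' q' →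
    Disjoint (Box.supp (⟨U, g, p, q⟩ : Box Y Q)) (Box.supp ⟨U', g', p', q'⟩) →
    Commute (elX σ k U g p q) (elX σ k U' g' p' q')
  | 0, _, _, _, _, _, _, _, _, h, h', hd => el3_comm σ h.good h'.good hd
  | k + 1, U, U', g, g', p, q, p', q', h, h', hd => by
    have go : ∀ e e', Commute (elX σ k U g (p ++ [e]) (q ++ [e]))
        (elX σ k U' g' (p' ++ [e']) (q' ++ [e'])) := fun e e' =>
      elX_comm k (h.child e) (h'.child e')
        (hd.mono (supp_child_subset _ _ _ _ _) (supp_child_subset _ _ _ _ _))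
    exact ((go false false).mul_right (go false true)).mul_left
      ((go true false).mul_right (go true true))

theorem elX_halves {k : ℕ} {U : Clopens Y} {g : Q} {p q : List Bool} (h : Ok (k + 1) U g p q) :
    Commute (elX σ k U g (p ++ [false]) (q ++ [false])) (elX σ k U g (p ++ [true]) (q ++ [true])) :=
  elX_comm σ k (h.child _) (h.child _) (children_disjoint (b := ⟨U, g, p, q⟩) h.2.2)

theorem elX_sq : ∀ k {U : Clopens Y} {g : Q} {p q : List Bool}, Ok k U g p q →
    elX σ k U g p q * elX σ k U g p q = 1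
  | 0, _, _, _, _, h => el3_sq σ h.good
  | k + 1, U, g, p, q, h => by
    have c := elX_halves σ h
    rw [elX, show ∀ a b : Gr σ, a * b * (a * b) = a * (b * a) * b from fun a b => by
      simp only [mul_assoc], ← c.eq, show ∀ a b : Gr σ, a * (a * b) * b = (a * a) * (b * b) from
      fun a b => by simp only [mul_assoc], elX_sq k (h.child _), elX_sq k (h.child _), one_mul]

theorem elX_flip : ∀ k {U : Clopens Y} {g : Q} {p q : List Bool}, Ok k U g p q →
    elX σ k (smulC g U) g⁻¹ q p = elX σ k U g p q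
  | 0, _, _, _, _, h => el3_flip σ h.good
  | k + 1, U, g, p, q, h => by
    rw [elX, elX, elX_flip k (h.child _), elX_flip k (h.child _)]

theorem elX_sup : ∀ k {U V : Clopens Y} {g : Q} {p q : List Bool}, Disjoint U V →
    Ok k (U ⊔ V) g p q → elX σ k (U ⊔ V) g p q = elX σ k U g p q * elX σ k V g p q
  | 0, _, _, _, _, _, hd, h => el3_sup σ hd h.good
  | k + 1, U, V, g, p, q, hd, h => by
    have okU : ∀ e, Ok k U g (p ++ [e]) (q ++ [e]) := fun e =>
      ⟨(h.child e).1, (h.child e).2.1, (h.child e).2.2.mono (cyl_mono (fun _ hy => Or.inl hy) _)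
        (cyl_mono (fun _ hy => Or.inl hy) _)⟩
    have okV : ∀ e, Ok k V g (p ++ [e]) (q ++ [e]) := fun e =>
      ⟨(h.child e).1, (h.child e).2.1, (h.child e).2.2.mono (cyl_mono (fun _ hy => Or.inr hy) _)
        (cyl_mono (fun _ hy => Or.inr hy) _)⟩
    have c : Commute (elX σ k V g (p ++ [false]) (q ++ [false]))
        (elX σ k U g (p ++ [true]) (q ++ [true])) := by
      refine elX_comm σ k (okV false) (okU true) ((children_disjoint (b := ⟨U ⊔ V, g, p, q⟩) h.2.2).mono
        ?_ ?_)
      · exact Set.union_subset_union (cyl_mono (fun _ hy => Or.inr hy) _)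
          (cyl_mono (fun _ hy => Or.inr hy) _)
      · exact Set.union_subset_union (cyl_mono (fun _ hy => Or.inl hy) _)
          (cyl_mono (fun _ hy => Or.inl hy) _)
    rw [elX, elX, elX, elX_sup k hd (h.child _), elX_sup k hd (h.child _)]
    simp only [mul_assoc]
    rw [← mul_assoc (elX σ k V g (p ++ [false]) (q ++ [false])), c.eq, mul_assoc]

theorem elX_word : ∀ k {U : Clopens Y} {g : Q} {p q : List Bool}, Ok k U g p q →
    elX σ (k + 1) U g p q = elX σ k U g p q
  | 0, U, g, p, q, h => (el3_word σ h.good).symm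
  | k + 1, U, g, p, q, h => by
    rw [elX, elX_word k (h.child _), elX_word k (h.child _)]
    rfl

theorem elX_collapse : ∀ k {U : Clopens Y} {g : Q} {p q : List Bool}, Good U g p q →
    elX σ k U g p q = el3 σ U g p q
  | 0, _, _, _, _, _ => rfl
  | k + 1, U, g, p, q, h => by
    rw [elX_word σ k ⟨by have := h.1; omega, by have := h.2.1; omega, h.2.2⟩, elX_collapse k h]

theorem act_elX : ∀ k {U : Clopens Y} {g : Q} {p q : List Bool}, Ok k U g p q →
    act σ (elX σ k U g p q) = mv ⟨U, g, p, q⟩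
  | 0, _, _, _, _, h => act_el3 σ h.good
  | k + 1, U, g, p, q, h => by
    rw [elX, map_mul, act_elX k (h.child _), act_elX k (h.child _),
      ← mv_split (b := ⟨U, g, p, q⟩) h.2.2]

theorem elX_tri : ∀ k {U : Clopens Y} {g h : Q} {p q r : List Bool}, Ok k U g p q →
    Ok k (smulC g U) h q r → Ok k U (h * g) p r →
    elX σ k U g p q * elX σ k (smulC g U) h q r * elX σ k U g p q = elX σ k U (h * g) p r
  | 0, _, _, _, _, _, _, h1, h2, h3 => el3_tri σ h1.good h2.good h3.good
  | k + 1, U, g, h, p, q, r, h1, h2, h3 => by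
    have hd : ∀ {a b : Bool}, a ≠ b → Disjoint
        (Box.supp (⟨U, g, p ++ [a], q ++ [a]⟩ : Box Y Q))
        (Box.supp ⟨smulC g U, h, q ++ [b], r ++ [b]⟩) := by
      intro a b hab
      have hi : ∀ w : List Bool, Inc (w ++ [a]) (w ++ [b]) := by
        intro w
        cases a <;> cases b <;> first | exact absurd rfl hab | exact V.inc_siblings _ |
          exact (V.inc_siblings _).symm
      have v1 : Disjoint (cyl (U : Set Y) p) (cyl (smulC g U : Set Y) q) := h1.2.2
      have v2 : Disjoint (cyl (smulC g U : Set Y) q) (cyl (smulC h (smulC g U) : Set Y) r) := h2.2.2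
      have v3 : Disjoint (cyl (U : Set Y) p) (cyl (smulC (h * g) U : Set Y) r) := h3.2.2
      refine disjoint_supp (v1.mono (cyl_append_subset _ _ _) (cyl_append_subset _ _ _)) ?_
        (disjoint_of_inc (hi q) _ _) (v2.mono (cyl_append_subset _ _ _) (cyl_append_subset _ _ _))
      rw [smulC_smulC]
      exact v3.mono (cyl_append_subset _ _ _) (cyl_append_subset _ _ _)
    have u := elX_comm σ k (h1.child true) (h2.child false) (hd Bool.false_ne_true.symm)
    have v := elX_comm σ k (h1.child false) (h2.child true) (hd Bool.false_ne_true)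
    have w := (elX_halves σ h1).symm
    simp only [elX]
    rw [show ∀ a a' b b' : Gr σ, Commute a' b → Commute a b' → Commute a' a →
        a * a' * (b * b') * (a * a') = (a * b * a) * (a' * b' * a') from fun a a' b b' u v w => by
          rw [show a * a' * (b * b') * (a * a') = a * (a' * b) * (b' * a) * a' by
            simp only [mul_assoc], u.eq, ← v.eq,
            show a * (b * a') * (a * b') * a' = a * b * (a' * a) * b' * a' by
              simp only [mul_assoc], w.eq]
          simp only [mul_assoc]]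
    · rw [elX_tri k (h1.child _) (h2.child _) (h3.child _), elX_tri k (h1.child _) (h2.child _)
        (h3.child _)]
    · exact u
    · exact v
    · exact w

/-- The exchange of a box. -/
noncomputable def el (b : Box Y Q) : Gr σ := elX σ 3 b.U b.g b.p b.q

theorem ok3 {U : Clopens Y} {g : Q} {p q : List Bool} (h : Box.Valid (⟨U, g, p, q⟩ : Box Y Q)) :
    Ok 3 U g p q := ⟨Nat.le_add_left 3 _, Nat.le_add_left 3 _, h⟩

/-- The subgroup of all exchanges. -/
noncomputable def boxGroup : Subgroup (Gr σ) :=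
  Subgroup.closure {x | ∃ b : Box Y Q, b.Valid ∧ x = el σ b}

theorem elC_mem {U : Clopens Y} {g : Q} {p q : List Bool} (h : Wide p q) :
    elC σ U g p q ∈ boxGroup σ := by
  refine Subgroup.subset_closure ⟨⟨U, g, p, q⟩, valid_of_inc h.2.2, ?_⟩
  rw [el, elX_collapse σ 3 ⟨h.1, h.2.1, valid_of_inc h.2.2⟩, el3_elC σ h]

theorem th_mem {x : Equiv.Perm Seq} (hx : x ∈ thompson) : th σ x ∈ boxGroup σ := by
  let f : thompson →* Gr σ := (QuotientGroup.mk' _).comp Monoid.Coprod.inr
  have hf : ∀ (y : Equiv.Perm Seq) (hy : y ∈ thompson), f ⟨y, hy⟩ = th σ y := fun y hy => by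
    rw [th, iv_eq hy]; rfl
  suffices thompson ≤ ((boxGroup σ).comap f).map thompson.subtype by
    obtain ⟨⟨y, hy⟩, hy', e⟩ := this hx
    rw [← hf x hx]
    cases e
    exact hy'
  refine (Subgroup.closure_le _).2 ?_
  rintro _ ⟨p, q, h, rfl⟩
  refine swp_deep 3 h fun r hr h' => ⟨⟨swp h', swp_mem h'⟩, ?_, rfl⟩
  rw [SetLike.mem_coe, Subgroup.mem_comap, hf,
    ← elC_swp σ (p := p ++ r) (q := q ++ r) ⟨by simp [hr], by simp [hr], h'⟩]
  exact elC_mem σ ⟨by simp [hr], by simp [hr], h'⟩

theorem io_mem (x : G) : io σ x ∈ boxGroup σ := by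
  have hx : x ∈ slotK σ.D σ.kap σ.el2 σ.base σ.qgen Finset.univ := by rw [σ.generated]; trivial
  induction hx using Subgroup.closure_induction with
  | mem x hx =>
    rcases hx with (⟨π, -, rfl⟩ | ⟨i, -, g, hg, rfl⟩) | ⟨U, -, a, -, b, -, c, -, d, -, hn, rfl⟩
    · obtain ⟨v, hv, he, -⟩ := exists_dperm σ π
      rw [← he]; exact th_mem σ hv
    · have hk := holds σ (r := (Monoid.Coprod.inl (σ.kap i g))⁻¹ * kapW σ i g)
        (Or.inr ⟨i, g, hg, rfl⟩) (by
          rw [map_mul, map_inv, phi_inl, show phi σ (kapW σ i g) = σ.toPerm (σ.kap i g) from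
            (exists_kapW σ i g).choose_spec.2, inv_mul_cancel])
      rw [map_mul, map_inv, inv_mul_eq_one] at hk
      change QuotientGroup.mk' _ (Monoid.Coprod.inl (σ.kap i g)) ∈ _
      rw [hk]
      have hm : kapW σ i g ∈ preM σ := (exists_kapW σ i g).choose_spec.1
      have hle : preM σ ≤ (boxGroup σ).comap (QuotientGroup.mk' _) := by
        refine (Subgroup.closure_le _).2 ?_
        rintro _ ⟨U, g, p, q, h, rfl⟩
        exact elC_mem σ h
      exact hle hm
    · rw [el2_eq σ hn]
      have hn' := hn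
      simp only [List.nodup_cons, List.mem_cons, List.not_mem_nil, or_false, not_or] at hn'
      exact Subgroup.mul_mem _ (elC_mem σ (wide_child hn'.1.1)) (elC_mem σ (wide_child hn'.2.2.1))
  | one => rw [map_one]; exact Subgroup.one_mem _
  | mul x y _ _ hx hy => rw [map_mul]; exact Subgroup.mul_mem _ hx hy
  | inv x _ hx => rw [map_inv]; exact Subgroup.inv_mem _ hx

theorem boxGroup_top : boxGroup σ = ⊤ := by
  rw [eq_top_iff]
  rintro x -
  obtain ⟨y, rfl⟩ := QuotientGroup.mk'_surjective _ x
  induction y using Monoid.Coprod.induction_on with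
  | inl g => exact io_mem σ g
  | inr v =>
    have h := th_mem σ v.2
    rwa [th, iv_eq v.2] at h
  | mul a b ha hb => rw [map_mul]; exact Subgroup.mul_mem _ ha hb

/-- The box system of a slot system. -/
noncomputable def system : BoxSystem Y Q (Gr σ) where
  toPerm := act σ
  el := el σ
  toPerm_el b hb z := by
    rw [el, act_elX σ 3 (ok3 hb), mv_apply hb]
  el_sq b hb := elX_sq σ 3 (ok3 hb)
  el_symm b hb := elX_flip σ 3 (ok3 hb)
  el_sup U V g p q hd hv := elX_sup σ 3 hd (ok3 hv)
  el_word U g p q hv := by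
    simp only [el]
    rw [← elX_word σ 3 (ok3 hv)]
    rfl
  el_comm b c hb hc hd := elX_comm σ 3 (ok3 hb) (ok3 hc) hd
  el_tri U g h p q r h1 h2 h3 := by
    refine elX_tri σ 3 (ok3 h1) (ok3 ?_) (ok3 h3)
    simp only [Box.Valid, Box.dom, Box.cod, smulC_smulC]
    exact h2
  generated := boxGroup_top σ

end Vale.Agent.P193.Bh.Depths

namespace Vale.Agent.P193.Bh

/-- Boxes of all lengths from slots. -/
theorem depthsGoal : DepthsGoal := fun _ _ _ hG σ =>
  ⟨Depths.Gr σ, inferInstance, Depths.gr_fp σ hG, ⟨Depths.system σ⟩⟩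

end Vale.Agent.P193.Bh
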