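import Vale.Agent.P193.Bh.Group.Depths.Moves
import Vale.Agent.P193.Bh.Group.Perm.Stab
import Vale.Agent.P193.Fp.Codes

/-!
# P193: Thompson's group on cones: moving a few cones, the stabiliser of a cone
-/

namespace Vale.Agent.P193.Bh.Depths

open Vale.Agent.P193.Fp
open Vale.Agent.P193.Bh.V (Seq Pre Inc swp sw sw_eq pre_app swp_left swp_right swp_out thompson
  swp_mem push push_app push_out push_swp push_mem inc_siblings)

/-- The parent of index `n`. -/
def par (n : ℕ) : List Bool := (List.range 5).map fun i => n.testBit (4 - i)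

theorem par_length (n : ℕ) : (par n).length = 5 := by simp [par]

theorem par_inj : ∀ i < 32, ∀ j < 32, par i = par j → i = j := by decide

theorem inc_par {i j : ℕ} (hi : i < 32) (hj : j < 32) (h : i ≠ j) : Inc (par i) (par j) :=
  incomp_of_length (by rw [par_length, par_length]) fun e => h (par_inj i hi j hj e)

/-- The cone containing the first two parents. -/
def base4 : List Bool := [false, false, false, false]

/-- Incomparable to the first two parents. -/
def Off (w : List Bool) : Prop := Inc base4 w

theorem length_words : ∀ n, (words n).length = 2 ^ n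
  | 0 => rfl
  | n + 1 => by
    have : ∀ l : List (List Bool),
        (l.flatMap fun p => [p ++ [false], p ++ [true]]).length = 2 * l.length := by
      intro l; induction l with
      | nil => rfl
      | cons a l ih => simp [ih]; omega
    rw [words, this, length_words n]; ring

theorem exists_free (n : ℕ) {L : List (List Bool)} (hL : L.length < 2 ^ n)
    (h : ∀ w ∈ L, n ≤ w.length) :
    ∃ v : List Bool, v.length = n ∧ ∀ w ∈ L, Inc v w := by
  have hex : ∃ v ∈ words n, ∀ w ∈ L, ¬v <+: w := by
    by_contra! hcon
    have hsub : words n ⊆ L.map (List.take n) := fun v hv => by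
      obtain ⟨w, hw, hp⟩ := hcon v hv
      exact List.mem_map.2
        ⟨w, hw, by rw [← mem_words.1 hv]; exact (List.prefix_iff_eq_take.1 hp).symm⟩
    have := ((nodup_words n).subperm hsub).length_le
    rw [List.length_map, length_words] at this
    omega
  obtain ⟨v, hv, hp⟩ := hex
  rw [mem_words] at hv
  refine ⟨v, hv, fun w hw => ⟨hp w hw, fun hwv => hp w hw ?_⟩⟩
  rw [hwv.eq_of_length_le (by rw [hv]; exact h w hw)]

/-- Exchanging several cones at once. -/
theorem exists_move : ∀ l : List (List Bool × List Bool),
    (l.map Prod.fst).Pairwise Inc → (l.map Prod.snd).Pairwise Inc →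
    (∀ x ∈ l, ∀ y ∈ l, Inc x.1 y.2) →
    ∃ w ∈ thompson, (∀ x ∈ l, Carries w x.1 x.2) ∧
      ∀ s, (∀ x ∈ l, ¬Pre x.1 s ∧ ¬Pre x.2 s) → w s = s
  | [], _, _, _ => ⟨1, thompson.one_mem, by simp, fun _ _ => rfl⟩
  | (a, b) :: l, h1, h2, h3 => by
    simp only [List.map_cons, List.pairwise_cons] at h1 h2
    obtain ⟨w, hw, hc, hf⟩ := exists_move l h1.2 h2.2 fun x hx y hy =>
      h3 x (List.mem_cons_of_mem _ hx) y (List.mem_cons_of_mem _ hy)
    have hab : Inc a b := h3 (a, b) List.mem_cons_self (a, b) List.mem_cons_self
    refine ⟨swp hab * w, thompson.mul_mem (swp_mem hab) hw, ?_, fun s hs => ?_⟩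
    · intro x hx
      rcases List.mem_cons.1 hx with rfl | hx'
      · intro t
        rw [Equiv.Perm.mul_apply, hf, swp_left]
        intro y hy
        exact ⟨(h1.1 _ (List.mem_map.2 ⟨y, hy, rfl⟩)).symm.not_pre (pre_app a t),
          (h3 (a, b) List.mem_cons_self y (List.mem_cons_of_mem _ hy)).symm.not_pre (pre_app a t)⟩
      · intro t
        rw [Equiv.Perm.mul_apply, hc x hx', swp_out]
        · exact (h3 (a, b) List.mem_cons_self x hx).not_pre (pre_app x.2 t)
        · exact (h2.1 _ (List.mem_map.2 ⟨x, hx', rfl⟩)).not_pre (pre_app x.2 t)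
    · simp only [List.forall_mem_cons] at hs
      rw [Equiv.Perm.mul_apply, hf s hs.2, swp_out hab hs.1.1 hs.1.2]

/-- Up to four incomparable long cones are images of the first parents. -/
theorem exists_wit {L : List (List Bool)} (hl : L.length ≤ 4) (hp : L.Pairwise Inc)
    (h3 : ∀ w ∈ L, 3 ≤ w.length) :
    ∃ w ∈ thompson, ∀ (i : ℕ) (h : i < L.length), Carries w (par i) L[i] := by
  obtain ⟨v, hv, hi⟩ := exists_free 3 (L := [false, false, false] :: L) (by simp; omega)
    (by simpa using h3)
  simp only [List.forall_mem_cons] at hi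
  set z : ℕ → List Bool := fun i => v ++ (List.range 2).map fun j => i.testBit j with hz
  have hzi : ∀ i < 4, ∀ j < 4, i ≠ j → Inc (z i) (z j) := by
    intro i hi' j hj hne
    refine (?_ : Inc _ _).push v
    revert i j; unfold V.Inc; decide
  have hzp : ∀ i, ∀ j < 4, Inc (z i) (par j) := by
    intro i j hj
    obtain ⟨r, hr⟩ : ∃ r, par j = [false, false, false] ++ r := by
      revert j; intro j hj; interval_cases j <;> exact ⟨_, rfl⟩
    rw [hr]; exact hi.1.append _ _
  have hzw : ∀ i, ∀ x ∈ L, Inc (z i) x := fun i x hx => by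
    simpa [hz] using (hi.2 x hx).append ((List.range 2).map fun j => i.testBit j) []
  have pw : ∀ f : ℕ → List Bool, (∀ i < 4, ∀ j < 4, i ≠ j → Inc (f i) (f j)) →
      ((List.range L.length).map f).Pairwise Inc := fun f hf => List.pairwise_map.2
    ((List.nodup_range (n := L.length)).imp_of_mem fun {a b} ha hb hne =>
      hf a (by have := List.mem_range.1 ha; omega) b (by have := List.mem_range.1 hb; omega) hne)
  obtain ⟨w1, hw1, hc1, -⟩ := exists_move ((List.range L.length).map fun i => (par i, z i))
    (by rw [List.map_map]; exact pw _ fun i a j b c => inc_par (by omega) (by omega) c)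
    (by rw [List.map_map]; exact pw _ hzi)
    (by
      simp only [List.mem_map, List.mem_range, forall_exists_index, and_imp,
        forall_apply_eq_imp_iff₂]
      exact fun i hi' j _ => (hzp j i (by omega)).symm)
  obtain ⟨w2, hw2, hc2, -⟩ := exists_move ((List.range L.length).map fun i => (z i, L.getD i []))
    (by rw [List.map_map]; exact pw _ hzi)
    (by
      rw [List.map_map]
      have : (List.range L.length).map (fun i => L.getD i []) = L := by
        refine List.ext_getElem (by simp) fun i a b => ?_
        simp [List.getD_eq_getElem?_getD, b]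
      simpa [Function.comp_def] using this.symm ▸ hp)
    (by
      simp only [List.mem_map, List.mem_range, forall_exists_index, and_imp,
        forall_apply_eq_imp_iff₂]
      intro i _ j hj
      simpa [List.getD_eq_getElem?_getD, hj] using hzw i L[j] (List.getElem_mem hj))
  refine ⟨w2 * w1, thompson.mul_mem hw2 hw1, fun i hi' => ?_⟩
  refine (hc1 (par i, z i) (List.mem_map.2 ⟨i, List.mem_range.2 hi', rfl⟩)).comp ?_
  have := hc2 (z i, L.getD i []) (List.mem_map.2 ⟨i, List.mem_range.2 hi', rfl⟩)
  simpa [List.getD_eq_getElem?_getD, hi'] using this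

theorem swp_deep {H : Subgroup (Equiv.Perm Seq)} : ∀ (k : ℕ) {p q : List Bool} (h : Inc p q),
    (∀ r : List Bool, r.length = k → ∀ h' : Inc (p ++ r) (q ++ r), swp h' ∈ H) → swp h ∈ H
  | 0, p, q, h, hr => by
    have := hr [] rfl (by simpa using h)
    simpa [V.swp_congr (p' := p) (q' := q) (show Inc (p ++ []) (q ++ []) by simpa using h) h
      (List.append_nil p) (List.append_nil q)] using this
  | k + 1, p, q, h, hr => by
    rw [V.swp_split h]
    have go : ∀ e, swp (h.append [e] [e]) ∈ H := fun e => swp_deep k _ fun r hl h' => by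
      rw [V.swp_congr h' (h.append (e :: r) (e :: r)) (by simp) (by simp)]
      exact hr (e :: r) (by simp [hl]) _
    exact H.mul_mem (go false) (go true)

/-- A list of generators for the stabiliser of the first two parents. -/
def offGens (T : Finset thompson) : Set (Equiv.Perm Seq) :=
  {x | ∃ P ∈ words 5, Off P ∧ ∃ t ∈ T, x = push P t} ∪
    {x | ∃ a ∈ words 6, ∃ b ∈ words 6, Off a ∧ Off b ∧ x = sw a b}

theorem offGens_finite (T : Finset thompson) : (offGens T).Finite := by
  refine (((words 5).toFinset ×ˢ T).finite_toSet.image (fun z => push z.1 (z.2 : Equiv.Perm Seq))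
    |>.union (((words 6).toFinset ×ˢ (words 6).toFinset).finite_toSet.image
      fun z => sw z.1 z.2)).subset ?_
  rintro x (⟨P, hP, -, t, ht, rfl⟩ | ⟨a, ha, b, hb, -, -, rfl⟩)
  · exact Or.inl ⟨(P, t), by simp [hP, ht], rfl⟩
  · exact Or.inr ⟨(a, b), by simp [ha, hb], rfl⟩

theorem offGens_mem {T : Finset thompson} {x : Equiv.Perm Seq} (hx : x ∈ offGens T) :
    x ∈ thompson := by
  rcases hx with ⟨P, -, -, t, -, rfl⟩ | ⟨a, -, b, -, -, -, rfl⟩
  · exact push_mem P t.2
  · unfold V.sw; split
    · exact swp_mem _
    · exact thompson.one_mem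

/-- Each generator lives in two cones of parents away from the first two. -/
theorem offGens_supp {T : Finset thompson} {x : Equiv.Perm Seq} (hx : x ∈ offGens T) :
    ∃ P Q : List Bool, P.length = 5 ∧ Q.length = 5 ∧ Off P ∧ Off Q ∧
      ∀ s, ¬Pre P s → ¬Pre Q s → x s = s := by
  rcases hx with ⟨P, hP, hoP, t, -, rfl⟩ | ⟨a, ha, b, hb, hoa, hob, rfl⟩
  · exact ⟨P, P, mem_words.1 hP, mem_words.1 hP, hoP, hoP, fun s hs _ => push_out _ hs⟩
  · rw [mem_words] at ha hb
    refine ⟨a.take 5, b.take 5, by simp [ha], by simp [hb],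
      V.inc_iff.2 fun s t e => ?_, V.inc_iff.2 fun s t e => ?_, fun s hs hs' => ?_⟩
    · have h4 : base4 <+: a.take 5 := by
        obtain ⟨r, hr, -⟩ := app_eq_prefix (by simp [base4, ha]) e
        exact ⟨r, hr.symm⟩
      exact hoa.1 (h4.trans (List.take_prefix 5 a))
    · have h4 : base4 <+: b.take 5 := by
        obtain ⟨r, hr, -⟩ := app_eq_prefix (by simp [base4, hb]) e
        exact ⟨r, hr.symm⟩
      exact hob.1 (h4.trans (List.take_prefix 5 b))
    · unfold V.sw
      split_ifs
      · exact swp_out _ (fun h => hs (h.of_prefix (List.take_prefix 5 a)))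
          fun h => hs' (h.of_prefix (List.take_prefix 5 b))
      · rfl

/-- A proper cone is the image of a standard one. -/
theorem exists_to {r : List Bool} (hr : r ≠ []) :
    ∃ a ∈ thompson, Carries a [false] r := by
  have h01 : Inc [false] [true] := by simp [Inc]
  obtain ⟨b, r, rfl⟩ := List.exists_cons_of_ne_nil hr
  cases b
  · have h1 : Inc [true] (false :: r) := by simp [Inc]
    exact ⟨swp h1 * swp h01, thompson.mul_mem (swp_mem _) (swp_mem _),
      Carries.comp (fun t => swp_left h01 t) fun t => swp_left h1 t⟩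
  · have h1 : Inc [false] (true :: r) := by simp [Inc]
    exact ⟨swp h1, swp_mem _, fun t => swp_left h1 t⟩

variable {T : Finset thompson}

theorem push_mem_off (hT : Subgroup.closure (T : Set thompson) = ⊤) {P : List Bool}
    (hP : P.length = 5) (ho : Off P) {x : Equiv.Perm Seq} (hx : x ∈ thompson) :
    push P x ∈ Subgroup.closure (offGens T) := by
  have : (⟨x, hx⟩ : thompson) ∈ Subgroup.closure (T : Set thompson) := by rw [hT]; trivial
  suffices ∀ y : thompson, y ∈ Subgroup.closure (T : Set thompson) →
      push P (y : Equiv.Perm Seq) ∈ Subgroup.closure (offGens T) from this _ ‹_›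
  intro y hy
  induction hy using Subgroup.closure_induction with
  | mem y hy => exact Subgroup.subset_closure (Or.inl ⟨P, mem_words.2 hP, ho, y, hy, rfl⟩)
  | one => simpa using Subgroup.one_mem _
  | mul y z _ _ hy hz => rw [Subgroup.coe_mul, map_mul]; exact Subgroup.mul_mem _ hy hz
  | inv y _ hy => rw [Subgroup.coe_inv, map_inv]; exact Subgroup.inv_mem _ hy

theorem swp_off (hT : Subgroup.closure (T : Set thompson) = ⊤) {p q : List Bool} (h : Inc p q)
    (hp : 6 ≤ p.length) (hq : 6 ≤ q.length) (op : Off p) (oq : Off q) :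
    swp h ∈ Subgroup.closure (offGens T) := by
  obtain ⟨P, r, rfl, hP⟩ : ∃ P r, p = P ++ r ∧ P.length = 5 :=
    ⟨p.take 5, p.drop 5, (List.take_append_drop 5 p).symm, by simp; omega⟩
  obtain ⟨Q, r', rfl, hQ⟩ : ∃ Q r', q = Q ++ r' ∧ Q.length = 5 :=
    ⟨q.take 5, q.drop 5, (List.take_append_drop 5 q).symm, by simp; omega⟩
  simp only [List.length_append] at hp hq
  have four : ∀ {A w : List Bool}, A.length = 5 → Off (A ++ w) → Off A := fun {A w} hA hw =>
    ⟨fun e => hw.1 (e.trans (List.prefix_append A w)), fun e => by
      have := e.length_le; simp [base4] at this; omega⟩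
  have oP := four hP op
  have oQ := four hQ oq
  by_cases hPQ : P = Q
  · subst hPQ
    have hrr : Inc r r' := by
      simpa [V.Inc, List.prefix_append_right_inj] using h
    rw [show swp h = push P (swp hrr) from (push_swp P hrr).symm]
    exact push_mem_off hT hP oP (swp_mem hrr)
  have hi : Inc P Q := incomp_of_length (hP.trans hQ.symm) hPQ
  obtain ⟨a, ha, hca⟩ := exists_to (r := r) fun e => by rw [e] at hp; simp at hp; omega
  obtain ⟨b, hb, hcb⟩ := exists_to (r := r') fun e => by rw [e] at hq; simp at hq; omega
  set x := push P a * push Q b with hx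
  have h0 : Inc (P ++ [false]) (Q ++ [false]) := hi.append _ _
  have c1 : Carries x (P ++ [false]) (P ++ r) := fun t => by
    simp only [hx, Equiv.Perm.mul_apply, app_append]
    rw [push_out b (hi.symm.not_pre (pre_app P _)), push_app, ← app_nil (app r t)]
    exact congrArg (app P) (hca t)
  have c2 : Carries x (Q ++ [false]) (Q ++ r') := fun t => by
    simp only [hx, Equiv.Perm.mul_apply, app_append]
    rw [push_app, show b (app [false] t) = app r' t from hcb t,
      push_out a (hi.not_pre (pre_app Q _))]
  have hxm : x ∈ Subgroup.closure (offGens T) :=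
    Subgroup.mul_mem _ (push_mem_off hT hP oP ha) (push_mem_off hT hQ oQ hb)
  rw [← V.swp_conj h0 h c1 c2]
  refine Subgroup.mul_mem _ (Subgroup.mul_mem _ hxm ?_) (Subgroup.inv_mem _ hxm)
  refine Subgroup.subset_closure (Or.inr ⟨_, ?_, _, ?_, ?_, ?_, (sw_eq h0).symm⟩)
  · simp [mem_words, hP]
  · simp [mem_words, hQ]
  · simpa [Off] using oP.append [] [false]
  · simpa [Off] using oQ.append [] [false]

theorem pre_head {s : Seq} {b : Bool} (e : s 0 = b) : Pre [b] s :=
  ⟨sdrop 1 s, by rw [app_cons, app_nil, ← e]; exact (scons_eta s).symm⟩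

open Classical in
/-- The part below the first letter `true` of a permutation fixing the other half. -/
noncomputable def lower1 (y : Equiv.Perm Seq) (hy : ∀ s, Pre [false] s → y s = s) :
    Equiv.Perm Seq where
  toFun t := sdrop 1 (y (app [true] t))
  invFun t := sdrop 1 (y⁻¹ (app [true] t))
  left_inv t := by
    have h : y (app [true] t) = app [true] (sdrop 1 (y (app [true] t))) := by
      rcases Bool.eq_false_or_eq_true (y (app [true] t) 0) with e | e
      · conv_lhs => rw [← scons_eta (y (app [true] t)), e]
        rfl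
      · have hpre : Pre [false] (y (app [true] t)) :=
          pre_head e
        have := y.injective (hy _ hpre)
        rw [this] at hpre
        exact absurd hpre (Inc.not_pre (by simp [Inc]) (pre_app [true] t))
    simp only
    rw [← h, ← Equiv.Perm.mul_apply, inv_mul_cancel]
    exact sdrop_app [true] t
  right_inv t := by
    have hy' : ∀ s, Pre [false] s → y⁻¹ s = s := fun s hs => by
      conv_lhs => rw [← hy s hs]
      rw [← Equiv.Perm.mul_apply, inv_mul_cancel]; rfl
    have h : y⁻¹ (app [true] t) = app [true] (sdrop 1 (y⁻¹ (app [true] t))) := by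
      rcases Bool.eq_false_or_eq_true (y⁻¹ (app [true] t) 0) with e | e
      · conv_lhs => rw [← scons_eta (y⁻¹ (app [true] t)), e]
        rfl
      · have hpre : Pre [false] (y⁻¹ (app [true] t)) :=
          pre_head e
        have := (y⁻¹).injective (hy' _ hpre)
        rw [this] at hpre
        exact absurd hpre (Inc.not_pre (by simp [Inc]) (pre_app [true] t))
    simp only
    rw [← h, ← Equiv.Perm.mul_apply, mul_inv_cancel]
    exact sdrop_app [true] t

theorem push_lower1 (y : Equiv.Perm Seq) (hy : ∀ s, Pre [false] s → y s = s) :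
    push [true] (lower1 y hy) = y := by
  ext1 s
  rw [← scons_eta s]
  cases h : s 0
  · have hp : Pre [false] (scons false (sdrop 1 s)) := ⟨sdrop 1 s, rfl⟩
    rw [push_out _ (Inc.not_pre (by simp [Inc]) hp), hy _ hp]
  · rw [show scons true (sdrop 1 s) = app [true] (sdrop 1 s) from rfl, push_app]
    change app [true] (sdrop 1 (y (app [true] (sdrop 1 s)))) = _
    rcases Bool.eq_false_or_eq_true (y (app [true] (sdrop 1 s)) 0) with e | e
    · conv_rhs => rw [← scons_eta (y (app [true] (sdrop 1 s))), e]
      rfl
    · have hpre : Pre [false] (y (app [true] (sdrop 1 s))) :=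
        pre_head e
      have := y.injective (hy _ hpre)
      rw [this] at hpre
      exact absurd hpre (Inc.not_pre (by simp [Inc]) (pre_app [true] _))

theorem lower1_mem {y : Equiv.Perm Seq} (hy : ∀ s, Pre [false] s → y s = s) (hm : y ∈ thompson) :
    lower1 y hy ∈ thompson := by
  obtain ⟨n, hn⟩ := V.exists_tab hm
  refine V.mem_of_tab (n := n) fun p hp => ?_
  obtain ⟨q, hq⟩ := hn.mono (Nat.le_succ n) (true :: p) (by simp [hp])
  refine ⟨q.tail, fun t => ?_⟩
  change sdrop 1 (y (app [true] (app p t))) = _
  rw [← app_append, List.singleton_append, hq]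
  cases q with
  | nil =>
    exfalso
    have h2 := hq (app [false] t)
    rw [app_nil, ← hy _ (pre_app [false] t)] at h2
    have := congrFun (y.injective h2) 0
    simp [scons] at this
  | cons b q => exact sdrop_app [b] (app q t)

/-- The stabiliser of the first two parents is generated by `offGens`. -/
theorem stab_gen (hT : Subgroup.closure (T : Set thompson) = ⊤) {x : Equiv.Perm Seq}
    (hx : x ∈ thompson) (hfix : ∀ s, Pre base4 s → x s = s) :
    x ∈ Subgroup.closure (offGens T) := by
  have h1 : Inc [false] [true, false] := by simp [Inc]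
  have h2 : Inc [true, false] base4 := by simp [Inc, base4]
  set v := swp h2 * swp h1 with hv
  have hvm : v ∈ thompson := thompson.mul_mem (swp_mem _) (swp_mem _)
  have hc : Carries v [false] base4 :=
    Carries.comp (fun t => swp_left h1 t) fun t => swp_left h2 t
  have hy : ∀ s, Pre [false] s → (v⁻¹ * x * v) s = s := fun s hs => by
    rw [Equiv.Perm.mul_apply, Equiv.Perm.mul_apply, hfix _ (hc.pre.2 hs), ← Equiv.Perm.mul_apply,
      inv_mul_cancel]
    rfl
  have hym : v⁻¹ * x * v ∈ thompson :=
    thompson.mul_mem (thompson.mul_mem (thompson.inv_mem hvm) hx) hvm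
  obtain ⟨n, hn⟩ := V.exists_tab hvm
  have key : ∀ a b (h : Inc a b), v * push [true] (swp h) * v⁻¹ ∈ Subgroup.closure (offGens T) := by
    intro a b h
    suffices push [true] (swp h) ∈ (Subgroup.closure (offGens T)).comap
        (MulAut.conj v).toMonoidHom by simpa using this
    rw [push_swp]
    refine swp_deep n _ fun r hr hi => ?_
    obtain ⟨p', hp'⟩ := hn.mono (m := ([true] ++ a ++ r).length) (by simp; omega) _ rfl
    obtain ⟨q', hq'⟩ := hn.mono (m := ([true] ++ b ++ r).length) (by simp; omega) _ rfl
    have off : ∀ {w w'}, Carries v ([true] ++ w) w' → Off w' := fun {w w'} hw =>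
      hc.inc hw (by simp [Inc])
    have hpq : Inc p' q' := Carries.inc hp' hq' hi
    rw [Subgroup.mem_comap]
    simp only [MulEquiv.coe_toMonoidHom, MulAut.conj_apply]
    rw [V.swp_conj hi hpq hp' hq']
    refine swp_deep 6 _ fun r' hr' hi' => swp_off hT _ (by simp [hr']) (by simp [hr']) ?_ ?_
    · simpa [Off] using (off (w := a ++ r) fun t => by rw [← List.append_assoc]; exact hp' t).append [] r'
    · simpa [Off] using (off (w := b ++ r) fun t => by rw [← List.append_assoc]; exact hq' t).append [] r'
  have main : ∀ z ∈ thompson, v * push [true] z * v⁻¹ ∈ Subgroup.closure (offGens T) := by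
    intro z hz
    refine V.induction_left (motive := fun z => v * push [true] z * v⁻¹ ∈
      Subgroup.closure (offGens T)) (by simpa using Subgroup.one_mem _) (fun p q h y _ ih => ?_) hz
    have := Subgroup.mul_mem _ (key p q h) ih
    simpa [mul_assoc] using this
  have := main _ (lower1_mem hy hym)
  rw [push_lower1] at this
  simpa [mul_assoc] using this

end Vale.Agent.P193.Bh.Depths
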