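import Vale.Agent.P193.Bh.Group.Depths.Quot

/-!
# P193: exchanges of long incomparable cones in the amalgam
-/

namespace Vale.Agent.P193.Bh.Depths

open TopologicalSpace
open Vale.Agent.P193.Fp
open Vale.Agent.P193.Bh.V (Seq Pre Inc swp sw sw_eq pre_app thompson swp_mem swp_out swp_left
  swp_right)

variable {Y Q G : Type} [TopologicalSpace Y] [Group Q] [MulAction Q Y] [ContinuousConstSMul Q Y]
  [Group G] (σ : SlotSystem Y Q G)

theorem rel_swap {a b : Child} (h : a ≠ b) :
    io σ (σ.D (Equiv.swap a b)) = th σ (sw a.word b.word) := by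
  have := holds σ (r := (Monoid.Coprod.inl (σ.D (Equiv.swap a b)))⁻¹ * iv (sw a.word b.word))
    (Or.inl (Or.inl (Or.inl (Or.inr ⟨a, b, rfl⟩)))) (by
      rw [map_mul, map_inv, phi_inl, sw_eq (inc_child h), phi_iv σ (swp_mem _), toPerm_swap σ h,
        inv_mul_cancel])
  rwa [map_mul, map_inv, inv_mul_eq_one] at this

theorem rel_base :
    io σ (el5 σ ⊤ 1 (par 0) (par 1)) = th σ (sw (par 0) (par 1)) := by
  have hi : Inc (par 0) (par 1) := inc_par (by omega) (by omega) (by omega)
  have := holds σ (r := (Monoid.Coprod.inl (el5 σ ⊤ 1 (par 0) (par 1)))⁻¹ * iv (sw (par 0) (par 1)))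
    (Or.inl (Or.inl (Or.inr rfl))) (by
      rw [map_mul, map_inv, phi_inl, sw_eq hi, phi_iv σ (swp_mem _),
        toPerm_el5 σ (par_length 0) (par_length 1) (par_ne (by omega) (by omega) (by omega)),
        vPt_swp (Q := Q) hi, inv_mul_cancel])
  rwa [map_mul, map_inv, inv_mul_eq_one] at this

theorem exists_dperm (π : Equiv.Perm Child) :
    ∃ v ∈ thompson, th σ v = io σ (σ.D π) ∧ ∀ c : Child, Carries v c.word (π c).word := by
  induction π using Equiv.Perm.swap_induction_on with
  | one => exact ⟨1, thompson.one_mem, by rw [th_one, map_one, map_one], fun c t => rfl⟩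
  | swap_mul π a b hab ih =>
    obtain ⟨v, hv, he, hc⟩ := ih
    have hi := inc_child hab
    refine ⟨swp hi * v, thompson.mul_mem (swp_mem hi) hv, ?_, fun c => ?_⟩
    · rw [th_mul σ (swp_mem hi) hv, he, ← sw_eq hi, ← rel_swap σ hab, map_mul, map_mul]
    · refine (hc c).comp fun t => ?_
      rw [Equiv.Perm.mul_apply]
      by_cases h1 : π c = a
      · rw [h1, Equiv.swap_apply_left, swp_left]
      by_cases h2 : π c = b
      · rw [h2, Equiv.swap_apply_right, swp_right]
      rw [Equiv.swap_apply_of_ne_of_ne h1 h2, swp_out hi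
        ((inc_child (Ne.symm h1)).not_pre (pre_app _ t)) ((inc_child (Ne.symm h2)).not_pre (pre_app _ t))]

theorem exists_perm {ι : Type} (f g : ι → Child) (hf : Function.Injective f)
    (hg : Function.Injective g) : ∃ π : Equiv.Perm Child, ∀ i, π (f i) = g i := by
  classical
  let e : {x : Child // x ∈ Set.range f} ≃ {x : Child // x ∈ Set.range g} :=
    (Equiv.ofInjective f hf).symm.trans (Equiv.ofInjective g hg)
  refine ⟨e.extendSubtype, fun i => ?_⟩
  rw [Equiv.extendSubtype_apply_of_mem _ _ ⟨i, rfl⟩]
  simp [e, Equiv.ofInjective_symm_apply hf]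

theorem exists_perm4 {a b c d a' b' c' d' : Child} (h : [a, b, c, d].Nodup)
    (h' : [a', b', c', d'].Nodup) :
    ∃ π : Equiv.Perm Child, π a = a' ∧ π b = b' ∧ π c = c' ∧ π d = d' := by
  obtain ⟨π, hπ⟩ := exists_perm [a, b, c, d].get (fun i => [a', b', c', d'].get (i.cast rfl))
    (List.nodup_iff_injective_get.1 h) (List.nodup_iff_injective_get.1 h')
  exact ⟨π, hπ ⟨0, by simp⟩, hπ ⟨1, by simp⟩, hπ ⟨2, by simp⟩, hπ ⟨3, by simp⟩⟩

/-- The exchange of two long incomparable cones. -/
noncomputable def elC (U : Clopens Y) (g : Q) (p q : List Bool) : Gr σ := QuotientGroup.mk' (Subgroup.normalClosure (rels σ)) (preC σ U g p q)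

theorem elC_def (U : Clopens Y) (g : Q) (p q : List Bool) :
    elC σ U g p q = th σ (wit p q) * io σ (el5 σ U g (par 0) (par 1)) * (th σ (wit p q))⁻¹ := by
  simp only [elC, preC, map_mul, map_inv]; rfl

theorem par_eq_base (i : ℕ) (h : i < 2) : par i = base4 ++ [i == 1] := by
  interval_cases i <;> rfl

theorem base_pre {s : Seq} (h : Pre base4 s) : Pre (par 0) s ∨ Pre (par 1) s := by
  obtain ⟨t, rfl⟩ := h
  rw [V.pre_wd base4 t]
  rcases Bool.eq_false_or_eq_true (t 0) with e | e <;> rw [e]
  · exact Or.inr (pre_app (base4 ++ [true]) _)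
  · exact Or.inl (pre_app (base4 ++ [false]) _)

theorem off_par {i : ℕ} (hi : i < 2) {P : List Bool} (hP : Off P) : Inc (par i) P := by
  rw [par_eq_base i hi]; simpa using Inc.append hP [i == 1] []

theorem gen_commute (U : Clopens Y) (g : Q) {t : Equiv.Perm Seq} (ht : t ∈ offGens vgens) :
    Commute (io σ (el5 σ U g (par 0) (par 1))) (th σ t) := by
  classical
  obtain ⟨P, R, hP, hR, oP, oR, hfix⟩ := offGens_supp ht
  have hE : 3 ≤ ((Finset.Icc 2 6).filter fun i => par i ≠ P ∧ par i ≠ R).card := by
    have h2 : ∀ X : List Bool, ((Finset.Icc 2 6).filter fun i => par i = X).card ≤ 1 := by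
      intro X
      refine Finset.card_le_one.2 fun i hi j hj => ?_
      simp only [Finset.mem_filter, Finset.mem_Icc] at hi hj
      exact par_inj i (by omega) j (by omega) (hi.2.trans hj.2.symm)
    have hsub : Finset.Icc 2 6 ⊆ ((Finset.Icc 2 6).filter fun i => par i ≠ P ∧ par i ≠ R) ∪
        ((Finset.Icc 2 6).filter fun i => par i = P) ∪
        ((Finset.Icc 2 6).filter fun i => par i = R) := by
      intro i hi
      simp only [Finset.mem_union, Finset.mem_filter]
      tauto
    have := (Finset.card_le_card hsub).trans (Finset.card_union_le _ _)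
    have := Finset.card_union_le ((Finset.Icc 2 6).filter fun i => par i ≠ P ∧ par i ≠ R)
      ((Finset.Icc 2 6).filter fun i => par i = P)
    have := h2 P
    have := h2 R
    simp only [Nat.card_Icc] at *
    omega
  obtain ⟨E, hE, hE3⟩ := Finset.exists_subset_card_eq hE
  have hEm : ∀ i ∈ E, 2 ≤ i ∧ i < 7 ∧ par i ≠ P ∧ par i ≠ R := by
    intro i hi
    have := hE hi
    simp only [Finset.mem_filter, Finset.mem_Icc] at this
    exact ⟨this.1.1, by omega, this.2⟩
  set I := insert 0 (insert 1 E) with hI
  have hlt : ∀ i ∈ I, i < 32 := by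
    intro i hi
    simp only [hI, Finset.mem_insert] at hi
    rcases hi with rfl | rfl | hi
    · omega
    · omega
    · have := (hEm i hi).2.1; omega
  set S := (I ×ˢ (Finset.univ : Finset Bool)).image (fun z => ch (par z.1) z.2) with hS
  have hS10 : S.card = 10 := by
    rw [hS, Finset.card_image_of_injOn, Finset.card_product, Finset.card_univ, Fintype.card_bool,
      hI, Finset.card_insert_of_notMem, Finset.card_insert_of_notMem, hE3]
    · exact fun h => by have := (hEm 1 h).1; omega
    · simp only [Finset.mem_insert, not_or]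
      exact ⟨by omega, fun h => by have := (hEm 0 h).1; omega⟩
    · intro x hx y hy e
      simp only [Finset.coe_product, Set.mem_prod, Finset.mem_coe] at hx hy
      have := chPar_inj (hlt _ hx.1) (hlt _ hy.1) e
      exact Prod.ext this.1 this.2
  have hmemS : ∀ i ∈ I, ∀ e, ch (par i) e ∈ S := fun i hi e =>
    Finset.mem_image.2 ⟨(i, e), by simp [hi], rfl⟩
  have hin : el5 σ U g (par 0) (par 1) ∈ slots σ S :=
    σ.el2_mem U g _ _ _ _ (nodup_children (par_length 0) (par_length 1)
      (par_ne (by omega) (by omega) (by omega))) S (hmemS 0 (by simp [hI]) _)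
      (hmemS 1 (by simp [hI]) _) (hmemS 0 (by simp [hI]) _) (hmemS 1 (by simp [hI]) _) (by omega)
  have key : ∀ x ∈ Subgroup.closure (letters σ S), Commute (io σ x) (th σ t) := by
    intro x hx
    induction hx using Subgroup.closure_induction with
    | mem x hx =>
      have := holds σ (r := Monoid.Coprod.inl x * iv t * (Monoid.Coprod.inl x)⁻¹ * (iv t)⁻¹)
        (Or.inl (Or.inl (Or.inl (Or.inl ⟨x, letters_mono σ hx, t, ht, rfl⟩)))) (by
        rw [map_mul, map_mul, map_mul, map_inv, map_inv, phi_inl, phi_iv σ (offGens_mem ht),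
          mul_inv_eq_one, mul_inv_eq_iff_eq_mul]
        refine commute_of_fix (M := {z | ∃ a ∈ S, Pre a.word z.2})
          (fun z hz => letters_fix σ hx fun a ha h => hz ⟨a, ha, h⟩) ?_
        rintro ⟨y, s⟩ ⟨a, ha, hs⟩
        obtain ⟨⟨i, e⟩, hie, rfl⟩ := Finset.mem_image.1 ha
        have hiI : i ∈ I := (Finset.mem_product.1 hie).1
        rw [word_ch (par_length i)] at hs
        have hs' := hs.of_prefix (List.prefix_append (par i) [e])
        have hne : par i ≠ P ∧ par i ≠ R ∨ i < 2 := by
          simp only [hI, Finset.mem_insert] at hiI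
          rcases hiI with rfl | rfl | hi
          · exact Or.inr (by omega)
          · exact Or.inr (by omega)
          · exact Or.inl (hEm i hi).2.2
        have hincP : Inc (par i) P ∧ Inc (par i) R := by
          rcases hne with h | h
          · exact ⟨incomp_of_length ((par_length i).trans hP.symm) h.1,
              incomp_of_length ((par_length i).trans hR.symm) h.2⟩
          · exact ⟨off_par h oP, off_par h oR⟩
        rw [vPt_apply, hfix s (hincP.1.symm.not_pre hs') (hincP.2.symm.not_pre hs')])
      rw [map_mul, map_mul, map_mul, map_inv, map_inv, mul_inv_eq_one, mul_inv_eq_iff_eq_mul] at this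
      exact this
    | one => rw [map_one]; exact Commute.one_left _
    | mul x y _ _ hx hy => rw [map_mul]; exact hx.mul_left hy
    | inv x _ hx => rw [map_inv]; exact hx.inv_left
  exact key _ (slots_le σ S hin)

theorem stab_commute (U : Clopens Y) (g : Q) {x : Equiv.Perm Seq} (hx : x ∈ thompson)
    (h0 : Carries x (par 0) (par 0)) (h1 : Carries x (par 1) (par 1)) :
    Commute (io σ (el5 σ U g (par 0) (par 1))) (th σ x) := by
  have hfix : ∀ s, Pre base4 s → x s = s := fun s hs => by
    rcases base_pre hs with ⟨t, rfl⟩ | ⟨t, rfl⟩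
    exacts [h0 t, h1 t]
  have hc := stab_gen vgens_spec hx hfix
  clear hx h0 h1 hfix
  have : x ∈ thompson ∧ Commute (io σ (el5 σ U g (par 0) (par 1))) (th σ x) := by
    induction hc using Subgroup.closure_induction with
    | mem y hy => exact ⟨offGens_mem hy, gen_commute σ U g hy⟩
    | one => exact ⟨thompson.one_mem, by rw [th_one]; exact Commute.one_right _⟩
    | mul y z _ _ hy hz =>
      exact ⟨thompson.mul_mem hy.1 hz.1, by rw [th_mul σ hy.1 hz.1]; exact hy.2.mul_right hz.2⟩
    | inv y _ hy => exact ⟨thompson.inv_mem hy.1, by rw [th_inv σ hy.1]; exact hy.2.inv_right⟩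
  exact this.2

theorem elC_eq {U : Clopens Y} {g : Q} {p q : List Bool} (h : Wide p q) {v : Equiv.Perm Seq}
    (hv : v ∈ thompson) (h0 : Carries v (par 0) p) (h1 : Carries v (par 1) q) :
    elC σ U g p q = th σ v * io σ (el5 σ U g (par 0) (par 1)) * (th σ v)⁻¹ := by
  obtain ⟨hw, w0, w1⟩ := wit_spec h
  have hc := stab_commute σ U g (thompson.mul_mem (thompson.inv_mem hv) hw) (w0.comp h0.inv)
    (w1.comp h1.inv)
  rw [th_mul σ (thompson.inv_mem hv) hw, th_inv σ hv] at hc
  rw [elC_def]
  have := hc.eq
  calc th σ (wit p q) * io σ (el5 σ U g (par 0) (par 1)) * (th σ (wit p q))⁻¹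
      = th σ v * (((th σ v)⁻¹ * th σ (wit p q)) * io σ (el5 σ U g (par 0) (par 1))) *
          (th σ (wit p q))⁻¹ := by group
    _ = th σ v * (io σ (el5 σ U g (par 0) (par 1)) * ((th σ v)⁻¹ * th σ (wit p q))) *
          (th σ (wit p q))⁻¹ := by rw [this]
    _ = _ := by group

theorem elC_conj {U : Clopens Y} {g : Q} {p q p' q' : List Bool} (h : Wide p q) (h' : Wide p' q')
    {v : Equiv.Perm Seq} (hv : v ∈ thompson) (hp : Carries v p p') (hq : Carries v q q') :
    th σ v * elC σ U g p q * (th σ v)⁻¹ = elC σ U g p' q' := by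
  obtain ⟨hw, w0, w1⟩ := wit_spec h
  rw [elC_eq σ h' (thompson.mul_mem hv hw) (w0.comp hp) (w1.comp hq), th_mul σ hv hw, elC_def]
  group

theorem carries_of_children {v : Equiv.Perm Seq} {p q : List Bool}
    (h : ∀ e, Carries v (p ++ [e]) (q ++ [e])) : Carries v p q := fun t => by
  rw [V.pre_wd p t, V.pre_wd q t]; exact h _ _

theorem wide_par {A B : List Bool} (hA : A.length = 5) (hB : B.length = 5) (h : A ≠ B) :
    Wide A B := ⟨by omega, by omega, incomp_of_length (hA.trans hB.symm) h⟩

theorem io_el5 {U : Clopens Y} {g : Q} {A B : List Bool} (hA : A.length = 5) (hB : B.length = 5)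
    (h : A ≠ B) : io σ (el5 σ U g A B) = elC σ U g A B := by
  have h01 := par_ne (i := 0) (j := 1) (by omega) (by omega) (by omega)
  obtain ⟨π, p0, p1, p2, p3⟩ := exists_perm4 (nodup_children (par_length 0) (par_length 1) h01)
    (nodup_children hA hB h)
  obtain ⟨v, hv, he, hc⟩ := exists_dperm σ π
  have hk : ∀ (i : ℕ) (X : List Bool), X.length = 5 → (∀ e, π (ch (par i) e) = ch X e) →
      Carries v (par i) X := fun i X hX hπ => carries_of_children fun e => by
    have := hc (ch (par i) e)
    rwa [hπ e, word_ch (par_length i), word_ch hX] at this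
  rw [elC_eq σ (wide_par hA hB h) hv (hk 0 A hA (Bool.forall_bool.2 ⟨p0, p2⟩))
    (hk 1 B hB (Bool.forall_bool.2 ⟨p1, p3⟩)), he, ← map_inv, ← map_mul, ← map_mul, el5, el5,
    σ.el2_equiv, p0, p1, p2, p3]

theorem act_elC {U : Clopens Y} {g : Q} {p q : List Bool} (h : Wide p q) :
    act σ (elC σ U g p q) = mv ⟨U, g, p, q⟩ := phi_preC σ h

theorem elC_swp {p q : List Bool} (h : Wide p q) :
    elC σ (⊤ : Clopens Y) (1 : Q) p q = th σ (swp h.2.2) := by
  have hi : Inc (par 0) (par 1) := inc_par (by omega) (by omega) (by omega)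
  obtain ⟨hw, w0, w1⟩ := wit_spec h
  rw [elC_def, rel_base, sw_eq hi, ← th_mul σ hw (swp_mem hi), ← th_inv σ hw,
    ← th_mul σ (thompson.mul_mem hw (swp_mem hi)) (thompson.inv_mem hw), V.swp_conj hi h.2.2 w0 w1]

theorem elC_sq {U : Clopens Y} {g : Q} {p q : List Bool} (_h : Wide p q) :
    elC σ U g p q * elC σ U g p q = 1 := by
  rw [elC_def, show ∀ a b : Gr σ, a * b * a⁻¹ * (a * b * a⁻¹) = a * (b * b) * a⁻¹ from
    fun a b => by group, ← map_mul, el5, σ.el2_sq U g _ _ _ _ (nodup_children (par_length 0)
      (par_length 1) (par_ne (by omega) (by omega) (by omega))), map_one]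
  group

theorem elC_flip {U : Clopens Y} {g : Q} {p q : List Bool} (h : Wide p q) :
    elC σ (smulC g U) g⁻¹ q p = elC σ U g p q := by
  have h01 := par_ne (i := 0) (j := 1) (by omega) (by omega) (by omega)
  obtain ⟨hw, w0, w1⟩ := wit_spec h
  rw [← elC_conj σ (wide_par (par_length 1) (par_length 0) h01.symm) h.symm hw w1 w0,
    ← io_el5 σ (par_length 1) (par_length 0) h01.symm, el5,
    σ.el2_flip U g _ _ _ _ (nodup_children (par_length 0) (par_length 1) h01), elC_def]
  rfl

theorem elC_sup {U V : Clopens Y} {g : Q} {p q : List Bool} (hd : Disjoint U V) :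
    elC σ (U ⊔ V) g p q = elC σ U g p q * elC σ V g p q := by
  rw [elC_def, elC_def, elC_def, el5, σ.el2_sup U V g _ _ _ _ (nodup_children (par_length 0)
    (par_length 1) (par_ne (by omega) (by omega) (by omega))) hd, map_mul, el5, el5]
  group

theorem letters_sub {S : Finset Child} {x : G} (h : x ∈ Subgroup.closure (letters σ S)) :
    x ∈ slots σ S :=
  (Subgroup.closure_le _).2 (letters_le σ S) h

theorem rel_key {x : G} (hx : x ∈ slots σ nine) :
    th σ keyV * io σ x * (th σ keyV)⁻¹ = io σ (doubled σ x) := by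
  have hdisj : Disjoint (nine.image (half false)) (nine.image (half true)) := by
    rw [Finset.disjoint_left]
    rintro _ ha hb
    simp only [nine, Finset.image_image, Finset.mem_image, Finset.mem_univ, true_and,
      Function.comp_apply, half_src] at ha hb
    obtain ⟨m, rfl⟩ := ha
    obtain ⟨n, hn⟩ := hb
    exact Bool.false_ne_true (chPar_inj (i := 16 + n.val) (j := 16 + m.val) (by omega) (by omega) hn).2.symm
  have hmem : ∀ {y} (e : Bool), y ∈ Subgroup.closure (letters σ nine) →
      σ.D (half e) * y * (σ.D (half e))⁻¹ ∈ slots σ (nine.image (half e)) := fun e hy =>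
    conj_mem σ _ (fun a ha => Finset.mem_image_of_mem _ ha) hy
  have hswap : ∀ {y z}, y ∈ Subgroup.closure (letters σ nine) →
      z ∈ Subgroup.closure (letters σ nine) →
      Commute (σ.D (half true) * y * (σ.D (half true))⁻¹)
        (σ.D (half false) * z * (σ.D (half false))⁻¹) := fun hy hz =>
    σ.K_comm _ _ hdisj.symm _ (hmem true hy) _ (hmem false hz)
  have hx' := slots_le σ nine hx
  clear hx
  induction hx' using Subgroup.closure_induction with
  | mem x hx =>
    have := holds σ (r := iv keyV * Monoid.Coprod.inl x * (iv keyV)⁻¹ *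
      (Monoid.Coprod.inl (doubled σ x))⁻¹) (Or.inl (Or.inr ⟨x, letters_mono σ hx, rfl⟩)) (by
      rw [map_mul, map_mul, map_mul, map_inv, map_inv, phi_inl, phi_inl, phi_iv σ keyV_mem,
        mul_inv_eq_one, doubled]
      rcases hx with (⟨a, ha, b, hb, hne, rfl⟩ | ⟨i, hi, g, -, rfl⟩) |
        ⟨U, -, a, ha, b, hb, c, hc, d, hd, hn, rfl⟩
      · obtain ⟨m, -, rfl⟩ := Finset.mem_image.1 ha
        obtain ⟨n, -, rfl⟩ := Finset.mem_image.1 hb
        have hmn : tgt m ≠ tgt n := fun e => hne (by
          rw [Fin.ext (by have := par_inj _ (by omega) _ (by omega) e; omega : m.val = n.val)])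
        have hi : Inc (tgt m) (tgt n) :=
          incomp_of_length ((par_length _).trans (par_length _).symm) hmn
        have hd : ∀ e, σ.D (half e) * σ.D (Equiv.swap (src m) (src n)) * (σ.D (half e))⁻¹ =
            σ.D (Equiv.swap (ch (tgt m) e) (ch (tgt n) e)) := fun e => by
          rw [← map_inv, ← map_mul, ← map_mul, ← Equiv.swap_apply_apply, half_src, half_src]
        have hne' : ∀ e, ch (tgt m) e ≠ ch (tgt n) e := fun e he =>
          hmn (ch_inj (par_length _) (par_length _) he).1
        rw [hd, hd, map_mul, toPerm_swap σ hne, toPerm_swap σ (hne' false),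
          toPerm_swap σ (hne' true), ← map_inv, ← map_mul, ← map_mul, ← map_mul,
          V.swp_conj (inc_child hne) hi (keyV_carries m) (keyV_carries n), V.swp_split hi,
          V.swp_congr (inc_child (hne' false)) (hi.append [false] [false])
            (word_ch (par_length _) _) (word_ch (par_length _) _),
          V.swp_congr (inc_child (hne' true)) (hi.append [true] [true])
            (word_ch (par_length _) _) (word_ch (par_length _) _)]
      · obtain ⟨n, -, rfl⟩ := Finset.mem_image.1 hi
        have hw : ∀ e, (ch (tgt n) e).word = tgt n ++ [e] := word_ch (par_length _)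
        rw [σ.kap_equiv, σ.kap_equiv, half_src, half_src, map_mul, toPerm_kap', toPerm_kap',
          toPerm_kap', hw, hw, atc_conj g (keyV_carries n), atc_split]
      · obtain ⟨m1, -, rfl⟩ := Finset.mem_image.1 ha
        obtain ⟨m2, -, rfl⟩ := Finset.mem_image.1 hb
        obtain ⟨m3, -, rfl⟩ := Finset.mem_image.1 hc
        obtain ⟨m4, -, rfl⟩ := Finset.mem_image.1 hd
        have hn' : ∀ e, [ch (tgt m1) e, ch (tgt m2) e, ch (tgt m3) e, ch (tgt m4) e].Nodup :=
          fun e => by simpa [half_src] using hn.map (half e).injective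
        simp only [List.nodup_cons, List.mem_cons, List.not_mem_nil, or_false, not_or] at hn
        have ne : ∀ {m n : Fin 9}, src m ≠ src n → Inc (tgt m) (tgt n) := fun {m n} h =>
          inc_par (by omega) (by omega) fun e => h (by rw [Fin.ext (by omega : m.val = n.val)])
        have hw : ∀ (n : Fin 9) e, (ch (tgt n) e).word = tgt n ++ [e] :=
          fun n => word_ch (par_length _)
        rw [σ.el2_equiv, σ.el2_equiv, half_src, half_src, half_src, half_src, half_src, half_src,
          half_src, half_src, map_mul, toPerm_el2' σ (by simp [hn.1, hn.2.1, hn.2.2.1]),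
          toPerm_el2' σ (hn' false), toPerm_el2' σ (hn' true), hw, hw, hw, hw, hw, hw, hw, hw,
          show ∀ a b c : Equiv.Perm (Pt Y), a * (b * c) * a⁻¹ = a * b * a⁻¹ * (a * c * a⁻¹) from
            fun a b c => by group,
          mv_conj (valid_of_inc (inc_child hn.1.1)) (valid_of_inc (ne hn.1.1)) (keyV_carries m1)
            (keyV_carries m2),
          mv_conj (valid_of_inc (inc_child hn.2.2.1)) (valid_of_inc (ne hn.2.2.1)) (keyV_carries m3)
            (keyV_carries m4),
          mv_split (b := ⟨U, 1, tgt m1, tgt m2⟩) (valid_of_inc (ne hn.1.1)),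
          mv_split (b := ⟨U, 1, tgt m3, tgt m4⟩) (valid_of_inc (ne hn.2.2.1))]
        simp only [mul_assoc]
        rw [← mul_assoc (mv ⟨U, 1, tgt m1 ++ [true], _⟩), mv_comm, mul_assoc]
        have d1 := (ne hn.1.2.1).append [true] [false]
        have d2 := (ne hn.1.2.2).append [true] [false]
        have d3 := (ne hn.2.1.1).append [true] [false]
        have d4 := (ne hn.2.1.2).append [true] [false]
        simp only [Box.supp, Box.dom, Box.cod, Set.disjoint_union_left, Set.disjoint_union_right]
        exact ⟨⟨disjoint_cyl_word d1.1 d1.2 _ _, disjoint_cyl_word d3.1 d3.2 _ _⟩,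
          disjoint_cyl_word d2.1 d2.2 _ _, disjoint_cyl_word d4.1 d4.2 _ _⟩)
    rw [map_mul, map_mul, map_mul, map_inv, map_inv, mul_inv_eq_one] at this
    exact this
  | one => simp [doubled]
  | mul x y hx1 hy1 hx hy =>
    have e : doubled σ (x * y) = doubled σ x * doubled σ y := by
      have hc := (hswap hx1 hy1).eq
      simp only [doubled]
      calc _ = σ.D (half false) * x * (σ.D (half false))⁻¹ * (σ.D (half false) * y *
            (σ.D (half false))⁻¹ * (σ.D (half true) * x * (σ.D (half true))⁻¹)) *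
            (σ.D (half true) * y * (σ.D (half true))⁻¹) := by group
        _ = _ := by rw [← hc]; group
    rw [e, map_mul, map_mul, ← hx, ← hy]
    group
  | inv x hx1 hx =>
    have e : doubled σ x⁻¹ = (doubled σ x)⁻¹ := by
      have hc := (hswap hx1 hx1).inv_inv.eq
      simp only [doubled, mul_inv_rev, inv_inv, mul_assoc] at hc ⊢
      exact hc.symm
    rw [e, map_inv, map_inv, ← hx]
    group

end Vale.Agent.P193.Bh.Depths
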