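import Vale.Agent.P193.Bh.Group.Depths.Core

/-!
# P193: splitting, commutation and triangle for long incomparable cones
-/

namespace Vale.Agent.P193.Bh.Depths

open TopologicalSpace
open Vale.Agent.P193.Fp
open Vale.Agent.P193.Bh.V (Seq Pre Inc swp sw pre_app thompson swp_mem)

variable {Y Q G : Type} [TopologicalSpace Y] [Group Q] [MulAction Q Y] [ContinuousConstSMul Q Y]
  [Group G] (σ : SlotSystem Y Q G)

theorem Wide.children {p q : List Bool} (h : Wide p q) (r r' : List Bool) :
    Wide (p ++ r) (q ++ r') := by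
  refine ⟨?_, ?_, h.2.2.append r r'⟩
  · have := h.1; simp; omega
  · have := h.2.1; simp; omega

theorem wide_child {a b : Child} (h : a ≠ b) : Wide a.word b.word :=
  ⟨by rw [word_length]; omega, by rw [word_length]; omega, inc_child h⟩

/-- The double exchange of four standard children is the product of its two exchanges. -/
theorem el2_std (U : Clopens Y) (g : Q) :
    io σ (σ.el2 U g (src 0) (src 2) (src 1) (src 3)) =
      elC σ U g (src 0).word (src 2).word * elC σ U g (src 1).word (src 3).word := by
  have ne : ∀ {m n : Fin 9}, m ≠ n → Inc (tgt m) (tgt n) := fun {m n} h =>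
    inc_par (by omega) (by omega) fun e => h (Fin.ext (by omega))
  have cne : ∀ {m n : Fin 9} {e f : Bool}, m ≠ n ∨ e ≠ f → ch (tgt m) e ≠ ch (tgt n) f := by
    intro m n e f h he
    have := chPar_inj (i := 16 + m.val) (j := 16 + n.val) (by omega) (by omega) he
    rcases h with h | h
    · exact h (Fin.ext (by omega))
    · exact h this.2
  have hn : [src 0, src 2, src 1, src 3].Nodup :=
    List.Nodup.map (f := src) src_inj (show [(0 : Fin 9), 2, 1, 3].Nodup by decide)
  have hmem : σ.el2 U g (src 0) (src 2) (src 1) (src 3) ∈ slots σ nine :=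
    σ.el2_mem U g _ _ _ _ hn nine (Finset.mem_image_of_mem _ (Finset.mem_univ _))
      (Finset.mem_image_of_mem _ (Finset.mem_univ _)) (Finset.mem_image_of_mem _ (Finset.mem_univ _))
      (Finset.mem_image_of_mem _ (Finset.mem_univ _)) nine_card.ge
  have hk := rel_key σ hmem
  rw [doubled, σ.el2_equiv, σ.el2_equiv] at hk
  simp only [half_src] at hk
  set A := fun e => ch (tgt 0) e
  set B := fun e => ch (tgt 2) e
  set C := fun e => ch (tgt 1) e
  set D := fun e => ch (tgt 3) e
  have regroup : σ.el2 U g (A false) (B false) (C false) (D false) *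
      σ.el2 U g (A true) (B true) (C true) (D true) =
      el5 σ U g (tgt 0) (tgt 2) * el5 σ U g (tgt 1) (tgt 3) := by
    have nd : ∀ l : List (Fin 9 × Bool), l.Nodup →
        (l.map fun z => ch (tgt z.1) z.2).Nodup := fun l hl => hl.map fun a b e => by
      by_contra hne
      refine cne ?_ e
      by_contra hh
      push Not at hh
      exact hne (Prod.ext hh.1 hh.2)
    have h1 := σ.el2_chain U g (A false) (B false) (C false) (D false) (A true) (B true)
      (nd [(0, false), (2, false), (1, false), (3, false), (0, true), (2, true)] (by decide))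
    have h2 := σ.el2_chain U g (C false) (D false) (A true) (B true) (C true) (D true)
      (nd [(1, false), (3, false), (0, true), (2, true), (1, true), (3, true)] (by decide))
    have h3 := σ.el2_sq U g (C false) (D false) (A true) (B true)
      (nd [(1, false), (3, false), (0, true), (2, true)] (by decide))
    change _ = σ.el2 U g (A false) (B false) (A true) (B true) *
      σ.el2 U g (C false) (D false) (C true) (D true)
    rw [← h1, ← h2]
    simp only [mul_assoc]
    rw [← mul_assoc (σ.el2 U g (C false) (D false) (A true) (B true)), h3, one_mul]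
  have w : ∀ {m n : Fin 9}, m ≠ n → Wide (src m).word (src n).word := fun h =>
    wide_child (src_inj.ne h)
  have hA := elC_conj σ (U := U) (g := g) (w (show (0 : Fin 9) ≠ 2 by decide))
    (wide_par (par_length _) (par_length _) (par_ne (by omega) (by omega) (by decide)))
    keyV_mem (keyV_carries 0) (keyV_carries 2)
  have hC := elC_conj σ (U := U) (g := g) (w (show (1 : Fin 9) ≠ 3 by decide))
    (wide_par (par_length _) (par_length _) (par_ne (by omega) (by omega) (by decide)))
    keyV_mem (keyV_carries 1) (keyV_carries 3)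
  rw [regroup, map_mul] at hk
  change th σ keyV * _ * _ = io σ (el5 σ U g (tgt 0) (tgt 2)) * io σ (el5 σ U g (tgt 1) (tgt 3)) at hk
  simp only [tgt] at hk hA hC
  rw [io_el5 σ (par_length _) (par_length _) (par_ne (by omega) (by omega) (by decide)),
    io_el5 σ (par_length _) (par_length _) (par_ne (by omega) (by omega) (by decide))] at hk
  rw [← hA, ← hC] at hk
  exact mul_left_cancel (a := th σ keyV) (mul_right_cancel (b := (th σ keyV)⁻¹)
    (hk.trans (by group)))

/-- A double exchange is the product of its two exchanges. -/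
theorem el2_eq {U : Clopens Y} {g : Q} {a b c d : Child} (h : [a, b, c, d].Nodup) :
    io σ (σ.el2 U g a b c d) = elC σ U g a.word b.word * elC σ U g c.word d.word := by
  have hn : [src 0, src 2, src 1, src 3].Nodup :=
    List.Nodup.map (f := src) src_inj (show [(0 : Fin 9), 2, 1, 3].Nodup by decide)
  obtain ⟨π, p0, p1, p2, p3⟩ := exists_perm4 hn h
  obtain ⟨v, hv, he, hc⟩ := exists_dperm σ π
  simp only [List.nodup_cons, List.mem_cons, List.not_mem_nil, or_false, not_or] at h hn
  have e := congrArg (fun x => io σ (σ.D π) * x * (io σ (σ.D π))⁻¹) (el2_std σ U g)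
  rw [← map_inv, ← map_mul, ← map_mul, σ.el2_equiv, p0, p1, p2, p3, map_inv, ← he] at e
  have c0 := hc (src 0); rw [p0] at c0
  have c1 := hc (src 2); rw [p1] at c1
  have c2 := hc (src 1); rw [p2] at c2
  have c3 := hc (src 3); rw [p3] at c3
  rw [e, ← elC_conj σ (wide_child hn.1.1) (wide_child h.1.1) hv c0 c1,
    ← elC_conj σ (wide_child hn.2.2.1) (wide_child h.2.2.1) hv c2 c3]
  group

theorem elC_word {U : Clopens Y} {g : Q} {p q : List Bool} (h : Wide p q) :
    elC σ U g p q = elC σ U g (p ++ [false]) (q ++ [false]) * elC σ U g (p ++ [true]) (q ++ [true]) := by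
  obtain ⟨hw, w0, w1⟩ := wit_spec h
  have h01 := par_ne (i := 0) (j := 1) (by omega) (by omega) (by omega)
  have hp := wide_par (par_length 0) (par_length 1) h01
  rw [elC_def, el5, el2_eq σ (nodup_children (par_length 0) (par_length 1) h01),
    word_ch (par_length 0), word_ch (par_length 0), word_ch (par_length 1), word_ch (par_length 1),
    ← elC_conj σ (hp.children [false] [false]) (h.children [false] [false]) hw (w0.append _)
      (w1.append _),
    ← elC_conj σ (hp.children [true] [true]) (h.children [true] [true]) hw (w0.append _)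
      (w1.append _)]
  group

/-- Equal or incomparable. -/
def Sep (p q : List Bool) : Prop := p = q ∨ Inc p q

theorem Sep.symm {p q : List Bool} (h : Sep p q) : Sep q p := h.imp Eq.symm Inc.symm

theorem carries_unique {v : Equiv.Perm Seq} {a p q : List Bool} (h : Carries v a p)
    (h' : Carries v a q) : p = q := app_ext fun t => (h t).symm.trans (h' t)

/-- A frame for a few long words, pairwise equal or incomparable. -/
theorem exists_frame {L : List (List Bool)} (hl : L.length ≤ 4) (h3 : ∀ w ∈ L, 3 ≤ w.length)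
    (hs : ∀ x ∈ L, ∀ y ∈ L, Sep x y) :
    ∃ v ∈ thompson, ∀ x ∈ L, ∃ i < 4, Carries v (par i) x := by
  obtain ⟨v, hv, hc⟩ := exists_wit (L := L.dedup) ((List.dedup_sublist L).length_le.trans hl)
    ((List.nodup_dedup L).imp_of_mem fun {a b} ha hb hne =>
      (hs a (List.mem_dedup.1 ha) b (List.mem_dedup.1 hb)).resolve_left hne)
    fun w hw => h3 w (List.mem_dedup.1 hw)
  refine ⟨v, hv, fun x hx => ?_⟩
  obtain ⟨i, hi, e⟩ := List.getElem_of_mem (List.mem_dedup.2 hx)
  exact ⟨i, lt_of_lt_of_le hi ((List.dedup_sublist L).length_le.trans hl), e ▸ hc i hi⟩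

theorem elC_frame {U : Clopens Y} {g : Q} {p q : List Bool} (h : Wide p q) {v : Equiv.Perm Seq}
    (hv : v ∈ thompson) {i j : ℕ} (hi : i < 4) (hj : j < 4) (hp : Carries v (par i) p)
    (hq : Carries v (par j) q) :
    par i ≠ par j ∧ elC σ U g p q = th σ v * io σ (el5 σ U g (par i) (par j)) * (th σ v)⁻¹ := by
  have hne : par i ≠ par j := fun e => by
    rw [carries_unique (show Carries v (par j) p from e ▸ hp) hq] at h
    exact h.2.2.1 List.prefix_rfl
  exact ⟨hne, by rw [io_el5 σ (par_length i) (par_length j) hne,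
    elC_conj σ (wide_par (par_length i) (par_length j) hne) h hv hp hq]⟩

theorem elC_comm4 {U U' : Clopens Y} {g g' : Q} {p q p' q' : List Bool} (h : Wide p q)
    (h' : Wide p' q') (hs : Sep p p' ∧ Sep p q' ∧ Sep q p' ∧ Sep q q')
    (hd : Disjoint (Box.supp (⟨U, g, p, q⟩ : Box Y Q)) (Box.supp ⟨U', g', p', q'⟩)) :
    Commute (elC σ U g p q) (elC σ U' g' p' q') := by
  obtain ⟨s1, s2, s3, s4⟩ := hs
  have hpq : Sep p q := Or.inr h.2.2
  have hpq' : Sep p' q' := Or.inr h'.2.2
  obtain ⟨v, hv, hc⟩ := exists_frame (L := [p, q, p', q']) (by simp)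
    (by simp [h.1, h.2.1, h'.1, h'.2.1])
    (by
      have r : ∀ x : List Bool, Sep x x := fun x => Or.inl rfl
      simp [r, s1, s2, s3, s4, hpq, hpq', s1.symm, s2.symm, s3.symm, s4.symm, hpq.symm, hpq'.symm])
  obtain ⟨i, hi, ci⟩ := hc p (by simp)
  obtain ⟨j, hj, cj⟩ := hc q (by simp)
  obtain ⟨i', hi', ci'⟩ := hc p' (by simp)
  obtain ⟨j', hj', cj'⟩ := hc q' (by simp)
  obtain ⟨ne, e⟩ := elC_frame σ (U := U) (g := g) h hv hi hj ci cj
  obtain ⟨ne', e'⟩ := elC_frame σ (U := U') (g := g') h' hv hi' hj' ci' cj'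
  rw [e, e', ← MulAut.conj_apply, ← MulAut.conj_apply]
  refine Commute.map (Commute.map ?_ (io σ)) _
  rw [el5, el5]
  refine σ.el2_comm U g _ _ _ _ U' g' _ _ _ _ (nodup_children (par_length _) (par_length _) ne)
    (nodup_children (par_length _) (par_length _) ne') ?_
  have tr : ∀ {V V' : Set Y} {a a' : List Bool} {k k' : ℕ} (e e' : Bool), k < 4 → k' < 4 →
      Carries v (par k) a → Carries v (par k') a' → Disjoint (cyl V a) (cyl V' a') →
      Disjoint (cyl V (par k ++ [e])) (cyl V' (par k' ++ [e'])) := by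
    intro V V' a a' k k' e e' hk hk' ca ca' hdd
    rcases disjoint_cyl_iff.1 hdd with hb | hb
    · exact disjoint_cyl_base hb _ _
    · have hkk : k ≠ k' := fun hh => by
        subst hh
        exact hb.1 (by rw [carries_unique ca ca'])
      have := (inc_par (i := k) (j := k') (by omega) (by omega) hkk).append [e] [e']
      exact disjoint_cyl_word this.1 this.2 _ _
  simp only [Box.supp, Box.dom, Box.cod, Set.disjoint_union_left, Set.disjoint_union_right] at hd ⊢
  simp only [word_ch (par_length _)]
  repeat' apply And.intro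
  all_goals
    first
      | exact tr _ _ hi hi' ci ci' hd.1.1
      | exact tr _ _ hj hi' cj ci' hd.1.2
      | exact tr _ _ hi hj' ci cj' hd.2.1
      | exact tr _ _ hj hj' cj cj' hd.2.2

theorem elC_tri {U : Clopens Y} {g h : Q} {p q r : List Bool} (h1 : Wide p q) (h2 : Wide q r)
    (h3 : Wide p r) :
    elC σ U g p q * elC σ (smulC g U) h q r * elC σ U g p q = elC σ U (h * g) p r := by
  have a : Sep p q := Or.inr h1.2.2
  have b : Sep q r := Or.inr h2.2.2
  have c : Sep p r := Or.inr h3.2.2
  obtain ⟨v, hv, hc⟩ := exists_frame (L := [p, q, r]) (by simp) (by simp [h1.1, h1.2.1, h2.2.1])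
    (by
      have rr : ∀ x : List Bool, Sep x x := fun x => Or.inl rfl
      simp [rr, a, b, c, a.symm, b.symm, c.symm])
  obtain ⟨i, hi, ci⟩ := hc p (by simp)
  obtain ⟨j, hj, cj⟩ := hc q (by simp)
  obtain ⟨k, hk, ck⟩ := hc r (by simp)
  obtain ⟨ne1, e1⟩ := elC_frame σ (U := U) (g := g) h1 hv hi hj ci cj
  obtain ⟨ne2, e2⟩ := elC_frame σ (U := smulC g U) (g := h) h2 hv hj hk cj ck
  obtain ⟨ne3, e3⟩ := elC_frame σ (U := U) (g := h * g) h3 hv hi hk ci ck
  rw [e1, e2, e3, ← MulAut.conj_apply, ← MulAut.conj_apply, ← MulAut.conj_apply, ← map_mul,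
    ← map_mul, ← map_mul, ← map_mul, el5, el5, el5, σ.el2_tri]
  have hk' : ∀ {x y : ℕ} {e f : Bool}, x < 4 → y < 4 → par x ≠ par y ∨ e ≠ f →
      ch (par x) e ≠ ch (par y) f := fun hx hy h he => by
    have := ch_inj (par_length _) (par_length _) he
    exact h.elim (fun h => h this.1) fun h => h this.2
  simp only [List.nodup_cons, List.mem_cons, List.not_mem_nil, or_false, not_or, not_false_eq_true,
    List.nodup_nil, and_true]
  exact ⟨⟨hk' hi hj (Or.inl ne1), hk' hi hk (Or.inl ne3), hk' hi hi (Or.inr (by simp)),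
      hk' hi hj (Or.inl ne1), hk' hi hk (Or.inl ne3)⟩,
    ⟨hk' hj hk (Or.inl ne2), hk' hj hi (Or.inl ne1.symm), hk' hj hj (Or.inr (by simp)),
      hk' hj hk (Or.inl ne2)⟩,
    ⟨hk' hk hi (Or.inl ne3.symm), hk' hk hj (Or.inl ne2.symm), hk' hk hk (Or.inr (by simp))⟩,
    ⟨hk' hi hj (Or.inl ne1), hk' hi hk (Or.inl ne3)⟩, hk' hj hk (Or.inl ne2)⟩

end Vale.Agent.P193.Bh.Depths
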