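import Vale.Agent.P193.Bh.Group.Depths.Cones
import Vale.Agent.P193.Bh.Group.Interface2

/-!
# P193: how the letters of a slot system act
-/

namespace Vale.Agent.P193.Bh.Depths

open TopologicalSpace
open Vale.Agent.P193.Fp
open Vale.Agent.P193.Bh.V (Seq Pre Inc swp sw sw_eq pre_app swp_left swp_right swp_out)

/-- The child `e` of the parent `A`. -/
def ch (A : List Bool) (e : Bool) : Child := fun i => (A ++ [e]).getD i.val false

theorem word_length (a : Child) : a.word.length = 6 := by simp [Child.word]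

theorem word_ch {A : List Bool} (h : A.length = 5) (e : Bool) : (ch A e).word = A ++ [e] := by
  refine List.ext_getElem (by simp [word_length, h]) fun i h1 h2 => ?_
  simp only [Child.word, ch, List.getElem_ofFn]
  exact List.getD_eq_getElem _ _ h2

theorem word_inj {a b : Child} (h : a.word = b.word) : a = b := List.ofFn_injective h

theorem inc_child {a b : Child} (h : a ≠ b) : Inc a.word b.word :=
  incomp_of_length (by rw [word_length, word_length]) fun e => h (word_inj e)

theorem ch_inj {A B : List Bool} (hA : A.length = 5) (hB : B.length = 5) {e f : Bool}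
    (h : ch A e = ch B f) : A = B ∧ e = f := by
  have := congrArg Child.word h
  rw [word_ch hA, word_ch hB] at this
  obtain ⟨h1, h2⟩ := List.append_inj this (by omega)
  exact ⟨h1, by simpa using h2⟩

theorem exists_child (s : Seq) : ∃ (a : Child) (t : Seq), s = app a.word t := by
  refine ⟨fun i => (stake 6 s).getD i.val false, sdrop 6 s, ?_⟩
  have h : Child.word (fun i : Fin 6 => (stake 6 s).getD i.val false) = stake 6 s := by
    refine List.ext_getElem (by simp [word_length]) fun i h1 h2 => ?_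
    simp only [Child.word, List.getElem_ofFn]
    exact List.getD_eq_getElem _ _ h2
  rw [h, app_stake]

theorem par_ne {i j : ℕ} (hi : i < 32) (hj : j < 32) (h : i ≠ j) : par i ≠ par j :=
  fun e => h (par_inj i hi j hj e)

theorem chPar_inj {i j : ℕ} (hi : i < 32) (hj : j < 32) {e f : Bool}
    (h : ch (par i) e = ch (par j) f) : i = j ∧ e = f :=
  ⟨par_inj i hi j hj (ch_inj (par_length i) (par_length j) h).1,
    (ch_inj (par_length i) (par_length j) h).2⟩

variable {Y Q G : Type} [TopologicalSpace Y] [Group Q] [MulAction Q Y] [ContinuousConstSMul Q Y]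
  [Group G] (σ : SlotSystem Y Q G)

/-- The exchange of two parents. -/
def el5 (U : Clopens Y) (g : Q) (A B : List Bool) : G :=
  σ.el2 U g (ch A false) (ch B false) (ch A true) (ch B true)

theorem nodup_children {A B : List Bool} (hA : A.length = 5) (hB : B.length = 5) (h : A ≠ B) :
    [ch A false, ch B false, ch A true, ch B true].Nodup := by
  have k : ∀ {A B : List Bool} {e f : Bool}, A.length = 5 → B.length = 5 → ch A e = ch B f →
      A = B ∧ e = f := fun hA hB h => ch_inj hA hB h
  simp only [List.nodup_cons, List.mem_cons, List.not_mem_nil, or_false, not_or, not_false_eq_true,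
    List.nodup_nil, and_true]
  refine ⟨⟨?_, ?_, ?_⟩, ⟨?_, ?_⟩, ?_⟩ <;> intro e
  · exact h (k hA hB e).1
  · exact Bool.false_ne_true (k hA hA e).2
  · exact h (k hA hB e).1
  · exact h (k hB hA e).1.symm
  · exact Bool.false_ne_true (k hB hB e).2
  · exact h (k hA hB e).1

theorem toPerm_el2' {U : Clopens Y} {g : Q} {a b c d : Child} (h : [a, b, c, d].Nodup) :
    σ.toPerm (σ.el2 U g a b c d) = mv ⟨U, g, a.word, b.word⟩ * mv ⟨U, g, c.word, d.word⟩ := by
  simp only [List.nodup_cons, List.mem_cons, List.not_mem_nil, or_false, not_or] at h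
  have h1 : Box.Valid (⟨U, g, a.word, b.word⟩ : Box Y Q) := valid_of_inc (inc_child h.1.1)
  have h2 : Box.Valid (⟨U, g, c.word, d.word⟩ : Box Y Q) := valid_of_inc (inc_child h.2.2.1)
  ext1 z
  rw [σ.toPerm_el2 U g a b c d (by simp [h.1, h.2.1, h.2.2.1]) z, Equiv.Perm.mul_apply, mv_apply h2,
    mv_apply h1]

theorem toPerm_el5 {U : Clopens Y} {g : Q} {A B : List Bool} (hA : A.length = 5)
    (hB : B.length = 5) (h : A ≠ B) : σ.toPerm (el5 σ U g A B) = mv ⟨U, g, A, B⟩ := by
  rw [el5, toPerm_el2' σ (nodup_children hA hB h), word_ch hA, word_ch hA, word_ch hB, word_ch hB,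
    ← mv_split (b := ⟨U, g, A, B⟩) (valid_of_inc (incomp_of_length (hA.trans hB.symm) h))]

theorem toPerm_swap {a b : Child} (h : a ≠ b) :
    σ.toPerm (σ.D (Equiv.swap a b)) = vPt (swp (inc_child h)) := by
  ext1 z
  obtain ⟨y, s⟩ := z
  obtain ⟨c, t, rfl⟩ := exists_child s
  rw [σ.toPerm_D, vPt_apply]
  by_cases h1 : c = a
  · subst h1; rw [Equiv.swap_apply_left, swp_left]
  by_cases h2 : c = b
  · subst h2; rw [Equiv.swap_apply_right, swp_right]
  rw [Equiv.swap_apply_of_ne_of_ne h1 h2, swp_out _ ((inc_child (Ne.symm h1)).not_pre (pre_app _ t))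
    ((inc_child (Ne.symm h2)).not_pre (pre_app _ t))]

theorem toPerm_kap' (i : Child) (g : Q) : σ.toPerm (σ.kap i g) = atc g i.word := by
  ext1 z
  obtain ⟨y, s⟩ := z
  obtain ⟨c, t, rfl⟩ := exists_child s
  rw [σ.toPerm_kap]
  by_cases h : c = i
  · subst h; rw [if_pos rfl, atc_in g (pre_app _ t)]
  · rw [if_neg h, atc_out g]
    exact (inc_child (Ne.symm h)).not_pre (pre_app _ t)

/-- The letters on a set of cones, with transpositions for the permutations. -/
def letters (S : Finset Child) : Set G :=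
  {x | ∃ a ∈ S, ∃ b ∈ S, a ≠ b ∧ x = σ.D (Equiv.swap a b)} ∪
    {x | ∃ i ∈ S, ∃ g ∈ σ.qgen, x = σ.kap i g} ∪
    {x | ∃ U ∈ σ.base, ∃ a ∈ S, ∃ b ∈ S, ∃ c ∈ S, ∃ d ∈ S,
      [a, b, c, d].Nodup ∧ x = σ.el2 U 1 a b c d}

/-- The group generated on a set of cones. -/
abbrev slots (S : Finset Child) : Subgroup G :=
  slotK σ.D σ.kap σ.el2 σ.base σ.qgen S

theorem perm_mem {S : Finset Child} (π : Equiv.Perm Child) (hπ : ∀ a, a ∉ S → π a = a) :
    σ.D π ∈ Subgroup.closure (letters σ S) := by
  induction hn : (Finset.univ.filter fun a => π a ≠ a).card using Nat.strong_induction_on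
    generalizing π with
  | _ n ih =>
    by_cases h1 : ∀ a, π a = a
    · rw [show π = 1 from Equiv.ext h1, map_one]; exact Subgroup.one_mem _
    push Not at h1
    obtain ⟨a, ha⟩ := h1
    have haS : a ∈ S := by by_contra hh; exact ha (hπ a hh)
    have hbS : π a ∈ S := by
      by_contra hh
      exact ha (π.injective (hπ _ hh))
    set ρ := Equiv.swap a (π a) * π with hρ
    have hfix : ∀ c, π c = c → ρ c = c := fun c hc => by
      rw [hρ, Equiv.Perm.mul_apply, hc, Equiv.swap_apply_of_ne_of_ne]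
      · rintro rfl; exact ha hc
      · rintro rfl; exact ha (π.injective hc)
    have hlt : (Finset.univ.filter fun c => ρ c ≠ c).card < n := by
      rw [← hn]
      refine Finset.card_lt_card ⟨fun c hc => ?_, fun hsub => ?_⟩
      · simp only [Finset.mem_filter, Finset.mem_univ, true_and] at hc ⊢
        exact fun e => hc (hfix c e)
      · have := hsub (show a ∈ Finset.univ.filter fun c => π c ≠ c by simp [ha])
        simp [hρ] at this
    have hmem := ih _ hlt ρ (fun c hc => hfix c (hπ c hc)) rfl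
    rw [show π = Equiv.swap a (π a) * ρ by rw [hρ, ← mul_assoc, Equiv.swap_mul_self, one_mul],
      map_mul]
    exact Subgroup.mul_mem _
      (Subgroup.subset_closure (Or.inl (Or.inl ⟨a, haS, π a, hbS, Ne.symm ha, rfl⟩))) hmem

theorem slots_le (S : Finset Child) : slots σ S ≤ Subgroup.closure (letters σ S) := by
  refine (Subgroup.closure_le _).2 ?_
  rintro x ((⟨π, hπ, rfl⟩ | h) | h)
  · exact perm_mem σ π hπ
  · exact Subgroup.subset_closure (Or.inl (Or.inr h))
  · exact Subgroup.subset_closure (Or.inr h)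

theorem letters_le (S : Finset Child) : letters σ S ⊆ slots σ S := by
  rintro x ((⟨a, ha, b, hb, -, rfl⟩ | h) | h)
  · exact Subgroup.subset_closure (Or.inl (Or.inl ⟨_, fun c hc =>
      Equiv.swap_apply_of_ne_of_ne (fun e : c = a => hc (e ▸ ha))
        (fun e : c = b => hc (e ▸ hb)), rfl⟩))
  · exact Subgroup.subset_closure (Or.inl (Or.inr h))
  · exact Subgroup.subset_closure (Or.inr h)

theorem letters_finite : (letters σ Finset.univ).Finite := by
  classical
  refine ((Set.finite_range σ.D).union ((((Finset.univ : Finset Child) ×ˢ σ.qgen).finite_toSet.image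
    fun z => σ.kap z.1 z.2))).union ((σ.base ×ˢ ((Finset.univ : Finset (Child × Child × Child ×
      Child)))).finite_toSet.image fun z => σ.el2 z.1 1 z.2.1 z.2.2.1 z.2.2.2.1 z.2.2.2.2) |>.subset
    ?_
  rintro x ((⟨a, -, b, -, -, rfl⟩ | ⟨i, -, g, hg, rfl⟩) | ⟨U, hU, a, -, b, -, c, -, d, -, -, rfl⟩)
  · exact Or.inl (Or.inl ⟨_, rfl⟩)
  · exact Or.inl (Or.inr ⟨(i, g), by simp [hg], rfl⟩)
  · exact Or.inr ⟨(U, a, b, c, d), by simp [hU], rfl⟩

theorem letters_mono {S : Finset Child} : letters σ S ⊆ letters σ Finset.univ := by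
  rintro x ((⟨a, -, b, -, h⟩ | ⟨i, -, h⟩) | ⟨U, hU, a, -, b, -, c, -, d, -, h⟩)
  · exact Or.inl (Or.inl ⟨a, Finset.mem_univ _, b, Finset.mem_univ _, h⟩)
  · exact Or.inl (Or.inr ⟨i, Finset.mem_univ _, h⟩)
  · exact Or.inr ⟨U, hU, a, Finset.mem_univ _, b, Finset.mem_univ _, c, Finset.mem_univ _, d,
      Finset.mem_univ _, h⟩

/-- Outside the cones of `S` the letters on `S` act trivially. -/
theorem letters_fix {S : Finset Child} {x : G} (hx : x ∈ letters σ S) {z : Pt Y}
    (hz : ∀ a ∈ S, ¬Pre a.word z.2) : σ.toPerm x z = z := by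
  rcases hx with (⟨a, ha, b, hb, hne, rfl⟩ | ⟨i, hi, g, -, rfl⟩) |
    ⟨U, -, a, ha, b, hb, c, hc, d, hd, hn, rfl⟩
  · obtain ⟨y, s⟩ := z
    rw [toPerm_swap σ hne, vPt_apply, swp_out _ (hz a ha) (hz b hb)]
  · rw [toPerm_kap', atc_out g (hz i hi)]
  · rw [toPerm_el2' σ hn, Equiv.Perm.mul_apply, mv_out (b := ⟨U, (1 : Q), c.word, d.word⟩) (z := z),
      mv_out]
    · rintro (h | h)
      exacts [hz a ha h.2, hz b hb h.2]
    · rintro (h | h)
      exacts [hz c hc h.2, hz d hd h.2]

theorem conj_mem {S T : Finset Child} (π : Equiv.Perm Child) (hπ : ∀ a ∈ S, π a ∈ T) {x : G}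
    (hx : x ∈ Subgroup.closure (letters σ S)) : σ.D π * x * (σ.D π)⁻¹ ∈ slots σ T := by
  induction hx using Subgroup.closure_induction with
  | mem x hx =>
    refine letters_le σ T ?_
    rcases hx with (⟨a, ha, b, hb, hne, rfl⟩ | ⟨i, hi, g, hg, rfl⟩) |
      ⟨U, hU, a, ha, b, hb, c, hc, d, hd, hn, rfl⟩
    · refine Or.inl (Or.inl ⟨π a, hπ a ha, π b, hπ b hb, π.injective.ne hne, ?_⟩)
      rw [← map_inv, ← map_mul, ← map_mul, ← Equiv.swap_apply_apply]
    · exact Or.inl (Or.inr ⟨π i, hπ i hi, g, hg, σ.kap_equiv π i g⟩)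
    · exact Or.inr ⟨U, hU, π a, hπ a ha, π b, hπ b hb, π c, hπ c hc, π d, hπ d hd,
        hn.map π.injective, σ.el2_equiv π U 1 a b c d⟩
  | one => simpa using Subgroup.one_mem _
  | mul x y _ _ hx hy => simpa [mul_assoc] using Subgroup.mul_mem _ hx hy
  | inv x _ hx => simpa [mul_assoc] using Subgroup.inv_mem _ hx

end Vale.Agent.P193.Bh.Depths
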