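import Vale.Agent.P193.Bh.Group.Depths.Laws

/-!
# P193: exchanges of arbitrary long cones, through a fresh cone
-/

namespace Vale.Agent.P193.Bh.Depths

open TopologicalSpace
open Vale.Agent.P193.Fp
open Vale.Agent.P193.Bh.V (Seq Pre Inc swp sw pre_app thompson)

variable {Y Q G : Type} [TopologicalSpace Y] [Group Q] [MulAction Q Y] [ContinuousConstSMul Q Y]
  [Group G] (σ : SlotSystem Y Q G)

omit [TopologicalSpace Y] in
theorem disjoint_of_inc {p q : List Bool} (h : Inc p q) (U V : Set Y) :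
    Disjoint (cyl U p) (cyl V q) := disjoint_cyl_word h.1 h.2 U V

theorem disjoint_supp {U U' : Clopens Y} {g g' : Q} {p q p' q' : List Bool}
    (h1 : Disjoint (cyl (U : Set Y) p) (cyl (U' : Set Y) p'))
    (h2 : Disjoint (cyl (U : Set Y) p) (cyl (smulC g' U' : Set Y) q'))
    (h3 : Disjoint (cyl (smulC g U : Set Y) q) (cyl (U' : Set Y) p'))
    (h4 : Disjoint (cyl (smulC g U : Set Y) q) (cyl (smulC g' U' : Set Y) q')) :
    Disjoint (Box.supp (⟨U, g, p, q⟩ : Box Y Q)) (Box.supp ⟨U', g', p', q'⟩) := by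
  simp only [Box.supp, Box.dom, Box.cod, Set.disjoint_union_left, Set.disjoint_union_right]
  exact ⟨⟨h1, h3⟩, h2, h4⟩

theorem comm0_aux (m : List Bool) : ∀ {U U' : Clopens Y} {g g' : Q} {p z p' z' : List Bool},
    p' = p ++ m → Wide p z → Wide p' z' → Inc p z' → Inc p' z → Inc z z' →
    Disjoint (cyl (U : Set Y) p) (cyl (U' : Set Y) p') →
    Commute (elC σ U g p z) (elC σ U' g' p' z') := by
  induction m with
  | nil =>
    intro U U' g g' p z p' z' e h h' hpz hpz' hzz hd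
    exact elC_comm4 σ h h' ⟨Or.inl (by simp [e]), Or.inr hpz, Or.inr hpz'.symm, Or.inr hzz⟩
      (disjoint_supp hd (disjoint_of_inc hpz _ _) (disjoint_of_inc hpz'.symm _ _)
        (disjoint_of_inc hzz _ _))
  | cons x m ih =>
    intro U U' g g' p z p' z' e h h' hpz hpz' hzz hd
    have go : ∀ y, Commute (elC σ U g (p ++ [y]) (z ++ [y])) (elC σ U' g' p' z') := by
      intro y
      have hz : Inc (p ++ [y]) z' := by simpa using hpz.append [y] []
      have hzp : Inc p' (z ++ [y]) := by simpa using hpz'.append [] [y]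
      have hzz' : Inc (z ++ [y]) z' := by simpa using hzz.append [y] []
      have hd' := hd.mono_left (cyl_append_subset _ p [y])
      by_cases hy : y = x
      · exact ih (by simp [e, hy]) (h.children _ _) h' hz hzp hzz' hd'
      have hi : Inc (p ++ [y]) p' := by
        rw [e]
        have hs : Inc (p ++ [y]) (p ++ [x]) := by
          cases x <;> cases y <;> first | exact absurd rfl hy | exact V.inc_siblings p |
            exact (V.inc_siblings p).symm
        simpa using hs.append [] m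
      exact elC_comm4 σ (h.children _ _) h' ⟨Or.inr hi, Or.inr hz, Or.inr hzp.symm, Or.inr hzz'⟩
        (disjoint_supp hd' (disjoint_of_inc hz _ _) (disjoint_of_inc hzp.symm _ _)
          (disjoint_of_inc hzz' _ _))
    rw [elC_word σ h]
    exact (go false).mul_left (go true)

/-- Exchanges with fresh second words commute when the first sides are disjoint. -/
theorem comm0 {U U' : Clopens Y} {g g' : Q} {p z p' z' : List Bool} (h : Wide p z)
    (h' : Wide p' z') (hpz : Inc p z') (hpz' : Inc p' z) (hzz : Inc z z')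
    (hd : Disjoint (cyl (U : Set Y) p) (cyl (U' : Set Y) p')) :
    Commute (elC σ U g p z) (elC σ U' g' p' z') := by
  by_cases h1 : p <+: p'
  · obtain ⟨m, rfl⟩ := h1
    exact comm0_aux σ m rfl h h' hpz hpz' hzz hd
  by_cases h2 : p' <+: p
  · obtain ⟨m, rfl⟩ := h2
    exact (comm0_aux σ m rfl h' h hpz' hpz hzz.symm hd.symm).symm
  exact elC_comm4 σ h h' ⟨Or.inr ⟨h1, h2⟩, Or.inr hpz, Or.inr hpz'.symm, Or.inr hzz⟩
    (disjoint_supp hd (disjoint_of_inc hpz _ _) (disjoint_of_inc hpz'.symm _ _)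
      (disjoint_of_inc hzz _ _))

/-- An exchange factors through a fresh cone. -/
theorem elC_through {U : Clopens Y} {g : Q} {p q z : List Bool} (h : Wide p q) (hz : 3 ≤ z.length)
    (hp : Inc z p) (hq : Inc z q) :
    elC σ U 1 p z * elC σ U g z q * elC σ U 1 p z = elC σ U g p q := by
  have := elC_tri σ (U := U) (g := (1 : Q)) (h := g) ⟨h.1, hz, hp.symm⟩ ⟨hz, h.2.1, hq⟩ h
  rwa [smulC_one, mul_one] at this

theorem exists_fresh {L : List (List Bool)} (hl : L.length < 8) (h : ∀ w ∈ L, 3 ≤ w.length) :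
    ∃ z : List Bool, 3 ≤ z.length ∧ ∀ w ∈ L, Inc z w := by
  obtain ⟨z, hz, hi⟩ := exists_free 3 (L := L) (by simpa using hl) h
  exact ⟨z, hz.ge, hi⟩

/-- Exchanges with fresh second words, possibly equal over disjoint bases, commute. -/
theorem comm1 {U U' : Clopens Y} {g g' : Q} {p z p' z' : List Bool} (h : Wide p z)
    (h' : Wide p' z') (hpz : Inc p z') (hpz' : Inc p' z) (hzz : Sep z z')
    (hd : Disjoint (cyl (U : Set Y) p) (cyl (U' : Set Y) p'))
    (hd' : Disjoint (cyl (smulC g U : Set Y) z) (cyl (smulC g' U' : Set Y) z')) :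
    Commute (elC σ U g p z) (elC σ U' g' p' z') := by
  rcases hzz with rfl | hzz
  · obtain ⟨w, hw, hi⟩ := exists_fresh (L := [p, p', z]) (by simp) (by simp [h.1, h'.1, h.2.1])
    simp only [List.forall_mem_cons] at hi
    obtain ⟨hwp, hwp', hwz, -⟩ := hi
    rw [← elC_through σ h' hw hwp' hwz]
    have c1 : Commute (elC σ U g p z) (elC σ U' (1 : Q) p' w) :=
      comm0 σ h ⟨h'.1, hw, hwp'.symm⟩ hwp.symm hpz' hwz.symm hd
    have c2 : Commute (elC σ U g p z) (elC σ U' g' w z) :=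
      elC_comm4 σ h ⟨hw, h.2.1, hwz⟩ ⟨Or.inr hwp.symm, Or.inr h.2.2, Or.inr hwz.symm, Or.inl rfl⟩
        (disjoint_supp (disjoint_of_inc hwp.symm _ _) (disjoint_of_inc h.2.2 _ _)
          (disjoint_of_inc hwz.symm _ _) hd')
    exact (c1.mul_right c2).mul_right c1
  · exact comm0 σ h h' hpz hpz' hzz hd

/-- Two long words and the box is valid. -/
def Good (U : Clopens Y) (g : Q) (p q : List Bool) : Prop :=
  3 ≤ p.length ∧ 3 ≤ q.length ∧ Box.Valid (⟨U, g, p, q⟩ : Box Y Q)

/-- `z` is a fresh cone for `p`, `q`. -/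
def Fresh (z p q : List Bool) : Prop := 3 ≤ z.length ∧ Inc z p ∧ Inc z q

theorem Fresh.symm {z p q : List Bool} (h : Fresh z p q) : Fresh z q p := ⟨h.1, h.2.2, h.2.1⟩

/-- The exchange through the cone at `z`. -/
noncomputable def tw (U : Clopens Y) (g : Q) (p q z : List Bool) : Gr σ :=
  elC σ U 1 p z * elC σ U g z q * elC σ U 1 p z

open Classical in
/-- A fresh cone. -/
noncomputable def pick (p q : List Bool) : List Bool :=
  if h : ∃ z : List Bool, Fresh z p q then h.choose else []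

theorem pick_spec {U : Clopens Y} {g : Q} {p q : List Bool} (h : Good U g p q) :
    Fresh (pick p q) p q := by
  have hex : ∃ z : List Bool, Fresh z p q := by
    obtain ⟨z, hz, hi⟩ := exists_fresh (L := [p, q]) (by simp) (by simp [h.1, h.2.1])
    exact ⟨z, hz, hi p (by simp), hi q (by simp)⟩
  rw [pick, dif_pos hex]
  exact hex.choose_spec

/-- The exchange of two long cones. -/
noncomputable def el3 (U : Clopens Y) (g : Q) (p q : List Bool) : Gr σ :=
  tw σ U g p q (pick p q)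

theorem tw_eq {U : Clopens Y} {g : Q} {p q z z' : List Bool} (h : Good U g p q)
    (hz : Fresh z p q) (hz' : Fresh z' p q) : tw σ U g p q z = tw σ U g p q z' := by
  suffices key : ∀ {a b : List Bool}, Fresh a p q → Fresh b p q → Inc a b →
      tw σ U g p q a = tw σ U g p q b by
    obtain ⟨w, hw, hi⟩ := exists_fresh (L := [p, q, z, z']) (by simp)
      (by simp [h.1, h.2.1, hz.1, hz'.1])
    simp only [List.forall_mem_cons] at hi
    obtain ⟨i1, i2, i3, i4, -⟩ := hi
    rw [key hz ⟨hw, i1, i2⟩ i3.symm, key ⟨hw, i1, i2⟩ hz' i4]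
  intro a b ha hb hab
  have wpa : Wide p a := ⟨h.1, ha.1, ha.2.1.symm⟩
  have wpb : Wide p b := ⟨h.1, hb.1, hb.2.1.symm⟩
  have waq : Wide a q := ⟨ha.1, h.2.1, ha.2.2⟩
  have wqb : Wide q b := ⟨h.2.1, hb.1, hb.2.2.symm⟩
  have hm := elC_through σ (U := U) (g := g) waq hb.1 hab.symm hb.2.2
  have hA := elC_through σ (U := U) (g := (1 : Q)) wpb ha.1 ha.2.1 hab
  have hc : Commute (elC σ U (1 : Q) p a) (elC σ U g b q) := by
    rw [← elC_flip σ wqb.symm]
    exact comm0 σ wpa wqb hb.2.1.symm ha.2.2.symm hab h.2.2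
  have hs := elC_sq σ (U := U) (g := (1 : Q)) wpa
  rw [tw, tw, ← hm, ← hA]
  generalize elC σ U (1 : Q) p a = A at hc hs ⊢
  generalize elC σ U g b q = M at hc ⊢
  generalize elC σ U (1 : Q) a b = Z
  calc A * (Z * M * Z) * A = A * Z * (A * A) * M * (A * A) * Z * A := by
        rw [hs]; simp [mul_assoc]
    _ = A * Z * A * (A * M) * A * A * Z * A := by simp only [mul_assoc]
    _ = A * Z * A * M * (A * A) * A * Z * A := by rw [hc.eq]; simp only [mul_assoc]
    _ = A * Z * A * M * (A * Z * A) := by rw [hs]; simp [mul_assoc]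

theorem el3_eq {U : Clopens Y} {g : Q} {p q z : List Bool} (h : Good U g p q)
    (hz : Fresh z p q) : el3 σ U g p q = tw σ U g p q z :=
  tw_eq σ h (pick_spec h) hz

theorem el3_elC {U : Clopens Y} {g : Q} {p q : List Bool} (h : Wide p q) :
    el3 σ U g p q = elC σ U g p q := by
  have hz := pick_spec (U := U) (g := g) ⟨h.1, h.2.1, valid_of_inc h.2.2⟩
  exact elC_through σ h hz.1 hz.2.1 hz.2.2

theorem act_el3 {U : Clopens Y} {g : Q} {p q : List Bool} (h : Good U g p q) :
    act σ (el3 σ U g p q) = mv ⟨U, g, p, q⟩ := by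
  obtain ⟨hz, hp, hq⟩ := pick_spec h
  rw [el3, tw, map_mul, map_mul, act_elC σ ⟨h.1, hz, hp.symm⟩, act_elC σ ⟨hz, h.2.1, hq⟩,
    mv_tri h.2.2 hp hq]

theorem el3_sq {U : Clopens Y} {g : Q} {p q : List Bool} (h : Good U g p q) :
    el3 σ U g p q * el3 σ U g p q = 1 := by
  obtain ⟨hz, hp, hq⟩ := pick_spec h
  have h1 := elC_sq σ (U := U) (g := (1 : Q)) ⟨h.1, hz, hp.symm⟩
  have h2 := elC_sq σ (U := U) (g := g) (⟨hz, h.2.1, hq⟩ : Wide (pick p q) q)
  rw [el3, tw]
  generalize elC σ U (1 : Q) p (pick p q) = A at h1 ⊢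
  generalize elC σ U g (pick p q) q = B at h2 ⊢
  calc A * B * A * (A * B * A) = A * B * (A * A) * B * A := by simp only [mul_assoc]
    _ = A * (B * B) * A := by rw [h1]; simp [mul_assoc]
    _ = 1 := by rw [h2, mul_one, h1]

theorem el3_mid {U : Clopens Y} {g : Q} {p q a b : List Bool} (h : Good U g p q)
    (ha : Fresh a p q) (hb : Fresh b p q) (hab : Inc a b) :
    el3 σ U g p q = elC σ U 1 p a * elC σ (smulC g U) 1 q b * elC σ U g a b *
      elC σ (smulC g U) 1 q b * elC σ U 1 p a := by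
  have wqa : Wide q a := ⟨h.2.1, ha.1, ha.2.2.symm⟩
  have hm := elC_through σ (U := smulC g U) (g := g⁻¹) wqa hb.1 hb.2.2 hab.symm
  rw [elC_flip σ wqa.symm, elC_flip σ (⟨ha.1, hb.1, hab⟩ : Wide a b)] at hm
  rw [el3_eq σ h ha, tw, ← hm]
  simp only [mul_assoc]

theorem fresh2 {U : Clopens Y} {g : Q} {p q : List Bool} (h : Good U g p q) :
    ∃ a b, Fresh a p q ∧ Fresh b p q ∧ Inc a b := by
  have ha := pick_spec h
  obtain ⟨b, hb, hi⟩ := exists_fresh (L := [p, q, pick p q]) (by simp)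
    (by simp [h.1, h.2.1, ha.1])
  simp only [List.forall_mem_cons] at hi
  exact ⟨pick p q, b, ha, ⟨hb, hi.1, hi.2.1⟩, hi.2.2.1.symm⟩

theorem Good.flip {U : Clopens Y} {g : Q} {p q : List Bool} (h : Good U g p q) :
    Good (smulC g U) g⁻¹ q p :=
  ⟨h.2.1, h.1, h.2.2.flip⟩

theorem el3_flip {U : Clopens Y} {g : Q} {p q : List Bool} (h : Good U g p q) :
    el3 σ (smulC g U) g⁻¹ q p = el3 σ U g p q := by
  obtain ⟨a, b, ha, hb, hab⟩ := fresh2 h
  have hc : Commute (elC σ U (1 : Q) p a) (elC σ (smulC g U) (1 : Q) q b) :=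
    comm0 σ ⟨h.1, ha.1, ha.2.1.symm⟩ ⟨h.2.1, hb.1, hb.2.2.symm⟩ hb.2.1.symm ha.2.2.symm hab h.2.2
  rw [el3_mid σ h ha hb hab, el3_mid σ h.flip hb.symm ha.symm hab.symm, smulC_smulC, inv_mul_cancel,
    smulC_one, elC_flip σ (⟨ha.1, hb.1, hab⟩ : Wide a b), ← hc.eq]
  simp only [mul_assoc]
  rw [hc.eq]

theorem Good.left {U V : Clopens Y} {g : Q} {p q : List Bool} (h : Good (U ⊔ V) g p q) :
    Good U g p q :=
  ⟨h.1, h.2.1, h.2.2.mono (cyl_mono (fun _ hy => Or.inl hy) p) (cyl_mono (fun _ hy => Or.inl hy) q)⟩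

theorem Good.right {U V : Clopens Y} {g : Q} {p q : List Bool} (h : Good (U ⊔ V) g p q) :
    Good V g p q :=
  ⟨h.1, h.2.1, h.2.2.mono (cyl_mono (fun _ hy => Or.inr hy) p) (cyl_mono (fun _ hy => Or.inr hy) q)⟩

theorem el3_sup {U V : Clopens Y} {g : Q} {p q : List Bool} (hd : Disjoint U V)
    (h : Good (U ⊔ V) g p q) :
    el3 σ (U ⊔ V) g p q = el3 σ U g p q * el3 σ V g p q := by
  have hz := pick_spec h
  have wp : Wide p (pick p q) := ⟨h.1, hz.1, hz.2.1.symm⟩
  have wq : Wide q (pick p q) := ⟨h.2.1, hz.1, hz.2.2.symm⟩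
  have hUV : Disjoint (U : Set Y) (V : Set Y) :=
    Set.disjoint_left.2 fun y h1 h2 => disjoint_clopens.1 hd y h1 h2
  have cr : ∀ {A B : Clopens Y}, Disjoint (A : Set Y) (B : Set Y) →
      Good A g p q → Good B g p q → Good (A ⊔ B) g p q →
      Commute (elC σ A (1 : Q) p (pick p q)) (elC σ B g (pick p q) q) := by
    intro A B hAB _ _ hs
    rw [← elC_flip σ wq.symm]
    refine comm1 σ wp wq wp.2.2 wq.2.2 (Or.inl rfl) ?_ ?_
    · exact hs.2.2.mono (cyl_mono (fun _ hy => Or.inl hy) p)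
        (cyl_mono (fun _ hy => Or.inr hy) q)
    · rw [smulC_one, smulC_smulC, inv_mul_cancel, smulC_one]
      exact disjoint_cyl_base hAB _ _
  have c1 := cr hUV h.left h.right h
  have c2 := cr hUV.symm h.right h.left (by rw [sup_comm]; exact h)
  have c3 : Commute (elC σ U (1 : Q) p (pick p q)) (elC σ V (1 : Q) p (pick p q)) :=
    comm1 σ wp wp wp.2.2 wp.2.2 (Or.inl rfl) (disjoint_cyl_base hUV _ _)
      (by simpa using disjoint_cyl_base hUV _ _)
  simp only [el3, tw]
  rw [elC_sup σ hd, elC_sup σ hd]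
  generalize elC σ U (1 : Q) p (pick p q) = A at c1 c3 ⊢
  generalize elC σ V (1 : Q) p (pick p q) = B at c2 c3 ⊢
  generalize elC σ U g (pick p q) q = C at c2 ⊢
  generalize elC σ V g (pick p q) q = D at c1 ⊢
  calc A * B * (C * D) * (A * B) = A * (B * C) * (D * A) * B := by simp only [mul_assoc]
    _ = A * C * (B * A) * D * B := by rw [c2.eq, ← c1.eq]; simp only [mul_assoc]
    _ = A * C * A * (B * D * B) := by rw [← c3.eq]; simp only [mul_assoc]

theorem el3_word {U : Clopens Y} {g : Q} {p q : List Bool} (h : Good U g p q) :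
    el3 σ U g p q =
      el3 σ U g (p ++ [false]) (q ++ [false]) * el3 σ U g (p ++ [true]) (q ++ [true]) := by
  have hz := pick_spec h
  have wp : Wide p (pick p q) := ⟨h.1, hz.1, hz.2.1.symm⟩
  have wq : Wide q (pick p q) := ⟨h.2.1, hz.1, hz.2.2.symm⟩
  have gd : ∀ e, Good U g (p ++ [e]) (q ++ [e]) := fun e =>
    ⟨by have := h.1; simp; omega, by have := h.2.1; simp; omega, valid_child h.2.2 e⟩
  have fr : ∀ e, Fresh (pick p q ++ [e]) (p ++ [e]) (q ++ [e]) := fun e =>
    ⟨by have := hz.1; simp; omega, hz.2.1.append _ _, hz.2.2.append _ _⟩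
  rw [el3_eq σ (gd false) (fr false), el3_eq σ (gd true) (fr true), el3, tw, tw, tw,
    elC_word σ wp, elC_word σ wq.symm]
  have sib : ∀ {a b : Bool}, a ≠ b → Inc (pick p q ++ [a]) (pick p q ++ [b]) := by
    intro a b hab
    cases a <;> cases b <;> first | exact absurd rfl hab | exact V.inc_siblings _ |
      exact (V.inc_siblings _).symm
  have c : ∀ {a b : Bool}, a ≠ b → Commute (elC σ U (1 : Q) (p ++ [a]) (pick p q ++ [a]))
      (elC σ U g (pick p q ++ [b]) (q ++ [b])) := fun {a b} hab => by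
    rw [← elC_flip σ (wq.children [b] [b]).symm]
    exact comm0 σ (wp.children _ _) (wq.children _ _) (wp.2.2.append _ _) (wq.2.2.append _ _)
      (sib hab) (h.2.2.mono (cyl_append_subset _ _ _) (cyl_append_subset _ _ _))
  have c1 := c Bool.false_ne_true
  have c2 := c Bool.false_ne_true.symm
  have c3 : Commute (elC σ U (1 : Q) (p ++ [false]) (pick p q ++ [false]))
      (elC σ U (1 : Q) (p ++ [true]) (pick p q ++ [true])) :=
    comm0 σ (wp.children _ _) (wp.children _ _) (wp.2.2.append _ _) (wp.2.2.append _ _)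
      (sib Bool.false_ne_true) (disjoint_of_inc (V.inc_siblings p) _ _)
  generalize elC σ U (1 : Q) (p ++ [false]) (pick p q ++ [false]) = A at c1 c3 ⊢
  generalize elC σ U (1 : Q) (p ++ [true]) (pick p q ++ [true]) = B at c2 c3 ⊢
  generalize elC σ U g (pick p q ++ [false]) (q ++ [false]) = C at c2 ⊢
  generalize elC σ U g (pick p q ++ [true]) (q ++ [true]) = D at c1 ⊢
  calc A * B * (C * D) * (A * B) = A * (B * C) * (D * A) * B := by simp only [mul_assoc]
    _ = A * C * (B * A) * D * B := by rw [c2.eq, ← c1.eq]; simp only [mul_assoc]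
    _ = A * C * A * (B * D * B) := by rw [← c3.eq]; simp only [mul_assoc]

theorem el3_comm {U U' : Clopens Y} {g g' : Q} {p q p' q' : List Bool} (h : Good U g p q)
    (h' : Good U' g' p' q')
    (hd : Disjoint (Box.supp (⟨U, g, p, q⟩ : Box Y Q)) (Box.supp ⟨U', g', p', q'⟩)) :
    Commute (el3 σ U g p q) (el3 σ U' g' p' q') := by
  obtain ⟨a, ha, hi⟩ := exists_fresh (L := [p, q, p', q']) (by simp)
    (by simp [h.1, h.2.1, h'.1, h'.2.1])
  simp only [List.forall_mem_cons] at hi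
  obtain ⟨a1, a2, a3, a4, -⟩ := hi
  obtain ⟨b, hb, hi⟩ := exists_fresh (L := [p, q, p', q', a]) (by simp)
    (by simp [h.1, h.2.1, h'.1, h'.2.1, ha])
  simp only [List.forall_mem_cons] at hi
  obtain ⟨b1, b2, b3, b4, hba, -⟩ := hi
  simp only [Box.supp, Box.dom, Box.cod, Set.disjoint_union_left, Set.disjoint_union_right] at hd
  have wpa : Wide p a := ⟨h.1, ha, a1.symm⟩
  have wqa : Wide q a := ⟨h.2.1, ha, a2.symm⟩
  have wpb : Wide p' b := ⟨h'.1, hb, b3.symm⟩
  have wqb : Wide q' b := ⟨h'.2.1, hb, b4.symm⟩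
  rw [el3_eq σ h ⟨ha, a1, a2⟩, el3_eq σ h' ⟨hb, b3, b4⟩, tw, tw, ← elC_flip σ wqa.symm,
    ← elC_flip σ wqb.symm]
  have c11 : Commute (elC σ U (1 : Q) p a) (elC σ U' (1 : Q) p' b) :=
    comm0 σ wpa wpb b1.symm a3.symm hba.symm hd.1.1
  have c12 : Commute (elC σ U (1 : Q) p a) (elC σ (smulC g' U') g'⁻¹ q' b) :=
    comm0 σ wpa wqb b1.symm a4.symm hba.symm hd.2.1
  have c21 : Commute (elC σ (smulC g U) g⁻¹ q a) (elC σ U' (1 : Q) p' b) :=
    comm0 σ wqa wpb b2.symm a3.symm hba.symm hd.1.2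
  have c22 : Commute (elC σ (smulC g U) g⁻¹ q a) (elC σ (smulC g' U') g'⁻¹ q' b) :=
    comm0 σ wqa wqb b2.symm a4.symm hba.symm hd.2.2
  have e1 := (c11.mul_right c12).mul_right c11
  exact (e1.mul_left ((c21.mul_right c22).mul_right c21)).mul_left e1

theorem el3_tri {U : Clopens Y} {g h : Q} {p q r : List Bool} (h1 : Good U g p q)
    (h2 : Good (smulC g U) h q r) (h3 : Good U (h * g) p r) :
    el3 σ U g p q * el3 σ (smulC g U) h q r * el3 σ U g p q = el3 σ U (h * g) p r := by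
  obtain ⟨a, ha, hi⟩ := exists_fresh (L := [p, q, r]) (by simp) (by simp [h1.1, h1.2.1, h2.2.1])
  simp only [List.forall_mem_cons] at hi
  obtain ⟨a1, a2, a3, -⟩ := hi
  obtain ⟨b, hb, hi⟩ := exists_fresh (L := [p, q, r, a]) (by simp)
    (by simp [h1.1, h1.2.1, h2.2.1, ha])
  simp only [List.forall_mem_cons] at hi
  obtain ⟨b1, b2, b3, hba, -⟩ := hi
  obtain ⟨c, hc, hi⟩ := exists_fresh (L := [p, q, r, a, b]) (by simp)
    (by simp [h1.1, h1.2.1, h2.2.1, ha, hb])
  simp only [List.forall_mem_cons] at hi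
  obtain ⟨c1, c2, c3, hca, hcb, -⟩ := hi
  have wA : Wide p a := ⟨h1.1, ha, a1.symm⟩
  have wB : Wide q b := ⟨h1.2.1, hb, b2.symm⟩
  have wC : Wide r c := ⟨h2.2.1, hc, c3.symm⟩
  have wab : Wide a b := ⟨ha, hb, hba.symm⟩
  have wbc : Wide b c := ⟨hb, hc, hcb.symm⟩
  have wac : Wide a c := ⟨ha, hc, hca.symm⟩
  rw [el3_mid σ h1 ⟨ha, a1, a2⟩ ⟨hb, b1, b2⟩ hba.symm,
    el3_mid σ h2 ⟨hb, b2, b3⟩ ⟨hc, c2, c3⟩ hcb.symm,
    el3_mid σ h3 ⟨ha, a1, a3⟩ ⟨hc, c1, c3⟩ hca.symm, smulC_smulC]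
  have cAB : Commute (elC σ U (1 : Q) p a) (elC σ (smulC g U) (1 : Q) q b) :=
    comm0 σ wA wB b1.symm a2.symm hba.symm h1.2.2
  have cAC : Commute (elC σ U (1 : Q) p a) (elC σ (smulC (h * g) U) (1 : Q) r c) :=
    comm0 σ wA wC c1.symm a3.symm hca.symm h3.2.2
  have cBC : Commute (elC σ (smulC g U) (1 : Q) q b) (elC σ (smulC (h * g) U) (1 : Q) r c) := by
    have hd : Disjoint (cyl (smulC g U : Set Y) q) (cyl (smulC h (smulC g U) : Set Y) r) := h2.2.2
    rw [smulC_smulC] at hd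
    exact comm0 σ wB wC c2.symm b3.symm hcb.symm hd
  have cCM : Commute (elC σ (smulC (h * g) U) (1 : Q) r c) (elC σ U g a b) :=
    comm0 σ wC wab b3.symm hca.symm hcb (disjoint_of_inc a3.symm _ _)
  have cAN : Commute (elC σ U (1 : Q) p a) (elC σ (smulC g U) h b c) :=
    comm0 σ wA wbc c1.symm hba hca.symm (disjoint_of_inc b1.symm _ _)
  have cBP : Commute (elC σ (smulC g U) (1 : Q) q b) (elC σ U (h * g) a c) :=
    comm0 σ wB wac c2.symm hba.symm hcb.symm (disjoint_of_inc a2.symm _ _)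
  have htri := elC_tri σ (U := U) (g := g) (h := h) wab wbc wac
  have sA := elC_sq σ (U := U) (g := (1 : Q)) wA
  have sB := elC_sq σ (U := smulC g U) (g := (1 : Q)) wB
  have sC := elC_sq σ (U := smulC (h * g) U) (g := (1 : Q)) wC
  rw [← htri]
  rw [← htri] at cBP
  generalize elC σ U (1 : Q) p a = A at cAB cAC cAN sA ⊢
  generalize elC σ (smulC g U) (1 : Q) q b = B at cAB cBC cBP sB ⊢
  generalize elC σ (smulC (h * g) U) (1 : Q) r c = C at cAC cBC cCM sC ⊢
  generalize elC σ U g a b = M at cCM cBP htri ⊢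
  generalize elC σ (smulC g U) h b c = N at cAN cBP htri ⊢
  have iA : A⁻¹ = A := inv_eq_of_mul_eq_one_left sA
  have iB : B⁻¹ = B := inv_eq_of_mul_eq_one_left sB
  have iC : C⁻¹ = C := inv_eq_of_mul_eq_one_left sC
  have key : ∀ {x y : Gr σ}, Commute x y → x * x = 1 → x * y * x = y := fun hxy hx => by
    rw [hxy.eq, mul_assoc, hx, mul_one]
  have e1 : A * B * M * B * A = MulAut.conj (A * B * C) M := by
    rw [MulAut.conj_apply, mul_inv_rev, mul_inv_rev, iA, iB, iC]
    conv_lhs => rw [← key cCM sC]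
    simp only [mul_assoc]
  have e2 : B * C * N * C * B = MulAut.conj (A * B * C) N := by
    rw [MulAut.conj_apply, mul_inv_rev, mul_inv_rev, iA, iB, iC]
    conv_lhs => rw [← key cAN sA]
    simp only [← mul_assoc]
    rw [show B * C * A = A * B * C by rw [mul_assoc, ← cAC.eq, ← mul_assoc, ← cAB.eq],
      show A * B * C * N * A * C * B = A * B * C * N * (A * C) * B by simp only [mul_assoc], cAC.eq,
      show A * B * C * N * (C * A) * B = A * B * C * N * C * (A * B) by simp only [mul_assoc],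
      cAB.eq]
    simp only [mul_assoc]
  have e3 : A * C * (M * N * M) * C * A = MulAut.conj (A * B * C) (M * N * M) := by
    rw [MulAut.conj_apply, mul_inv_rev, mul_inv_rev, iA, iB, iC]
    conv_lhs => rw [← key cBP sB]
    simp only [← mul_assoc]
    rw [show A * C * B = A * B * C by rw [mul_assoc, ← cBC.eq, ← mul_assoc],
      show A * B * C * M * N * M * B * C * A = A * B * C * M * N * M * (B * C) * A by
        simp only [mul_assoc], cBC.eq]
    simp only [mul_assoc]
  rw [e1, e2, e3, ← map_mul, ← map_mul]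

end Vale.Agent.P193.Bh.Depths
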