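import Vale.Agent.P193.Bh.Group.Perm.Act

/-!
# P193: identities between exchanges as permutations of points
-/

namespace Vale.Agent.P193.Bh.Depths

open TopologicalSpace
open Vale.Agent.P193.Fp
open Vale.Agent.P193.Bh.V (Seq Pre Inc swp sw pre_app swp_left swp_right swp_out)

variable {Y Q : Type} [TopologicalSpace Y] [Group Q] [MulAction Q Y] [ContinuousConstSMul Q Y]

theorem move_move {b : Box Y Q} (h : b.Valid) (z : Pt Y) : b.move (b.move z) = z := by
  obtain ⟨y, s⟩ := z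
  by_cases hd : ((y, s) : Pt Y) ∈ b.dom
  · obtain ⟨hy, t, rfl : s = app b.p t⟩ := hd
    rw [b.move_dom hy, Box.move_cod h (smul_mem_smulC hy), inv_smul_smul]
  by_cases hc : ((y, s) : Pt Y) ∈ b.cod
  · obtain ⟨hy, t, rfl : s = app b.q t⟩ := hc
    rw [Box.move_cod h hy, b.move_dom (show b.g⁻¹ • y ∈ b.U from hy), smul_inv_smul]
  have : ((y, s) : Pt Y) ∉ b.supp := by simp [Box.supp, hd, hc]
  rw [Box.move_out this, Box.move_out this]

open Classical in
/-- The exchange of a box as a permutation. -/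
noncomputable def mv (b : Box Y Q) : Equiv.Perm (Pt Y) :=
  if h : b.Valid then Function.Involutive.toPerm b.move (move_move h) else 1

theorem mv_apply {b : Box Y Q} (h : b.Valid) (z : Pt Y) : mv b z = b.move z := by
  rw [mv, dif_pos h]; rfl

theorem mv_dom {b : Box Y Q} (h : b.Valid) {y : Y} (hy : y ∈ b.U) (t : Seq) :
    mv b (y, app b.p t) = (b.g • y, app b.q t) := by rw [mv_apply h, b.move_dom hy]

theorem mv_cod {b : Box Y Q} (h : b.Valid) {y : Y} (hy : y ∈ smulC b.g b.U) (t : Seq) :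
    mv b (y, app b.q t) = (b.g⁻¹ • y, app b.p t) := by rw [mv_apply h, Box.move_cod h hy]

theorem mv_out {b : Box Y Q} {z : Pt Y} (hz : z ∉ b.supp) : mv b z = z := by
  by_cases h : b.Valid
  · rw [mv_apply h, Box.move_out hz]
  · rw [mv, dif_neg h]; rfl

omit [TopologicalSpace Y] in
/-- A permutation living on `M` commutes with one fixing `M` pointwise. -/
theorem commute_of_fix {M : Set (Pt Y)} {x t : Equiv.Perm (Pt Y)} (hx : ∀ z ∉ M, x z = z)
    (ht : ∀ z ∈ M, t z = z) : x * t = t * x := by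
  ext1 z
  simp only [Equiv.Perm.mul_apply]
  by_cases hz : z ∈ M
  · have hxz : x z ∈ M := by
      by_contra hn
      have := x.injective (hx _ hn)
      rw [this] at hn
      exact hn hz
    rw [ht z hz, ht _ hxz]
  · have htz : t z ∉ M := fun hn => by
      have := t.injective (ht _ hn)
      rw [this] at hn
      exact hz hn
    rw [hx z hz, hx _ htz]

theorem mv_comm {b c : Box Y Q} (hd : Disjoint b.supp c.supp) : mv b * mv c = mv c * mv b :=
  commute_of_fix (M := b.supp) (fun _ hz => mv_out hz)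
    fun _ hz => mv_out (Set.disjoint_left.1 hd hz)

/-- A permutation of words, acting on points. -/
def vPt : Equiv.Perm Seq →* Equiv.Perm (Pt Y) where
  toFun x :=
    { toFun := fun z => (z.1, x z.2)
      invFun := fun z => (z.1, x⁻¹ z.2)
      left_inv := fun z => by simp
      right_inv := fun z => by simp }
  map_one' := rfl
  map_mul' _ _ := rfl

omit [TopologicalSpace Y] in
theorem vPt_apply (x : Equiv.Perm Seq) (y : Y) (s : Seq) :
    vPt (Y := Y) x (y, s) = (y, x s) := rfl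

/-- `w` carries the cone at `p` onto the cone at `p'`. -/
def Carries (w : Equiv.Perm Seq) (p p' : List Bool) : Prop := ∀ t, w (app p t) = app p' t

theorem Carries.inv {w : Equiv.Perm Seq} {p p' : List Bool} (h : Carries w p p') :
    Carries w⁻¹ p' p := fun t => by
  rw [← h t, ← Equiv.Perm.mul_apply, inv_mul_cancel]; rfl

theorem Carries.comp {w w' : Equiv.Perm Seq} {p q r : List Bool} (h : Carries w p q)
    (h' : Carries w' q r) : Carries (w' * w) p r := fun t => by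
  rw [Equiv.Perm.mul_apply, h t, h' t]

theorem Carries.append {w : Equiv.Perm Seq} {p p' : List Bool} (h : Carries w p p')
    (r : List Bool) : Carries w (p ++ r) (p' ++ r) := fun t => by
  rw [app_append, h, app_append]

theorem Carries.pre {w : Equiv.Perm Seq} {p p' : List Bool} (h : Carries w p p') {s : Seq} :
    Pre p' (w s) ↔ Pre p s := by
  refine ⟨fun ⟨t, e⟩ => ⟨t, w.injective (e.trans (h t).symm)⟩, ?_⟩
  rintro ⟨t, rfl⟩
  exact ⟨t, h t⟩

theorem inc_iff_pre {p q : List Bool} : Inc p q ↔ ∀ s, ¬(Pre p s ∧ Pre q s) := by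
  refine ⟨fun h s hs => h.not_pre hs.2 hs.1, fun h => V.inc_iff.2 fun s t e => ?_⟩
  exact h (app p s) ⟨pre_app p s, t, e⟩

theorem Carries.inc {w : Equiv.Perm Seq} {p p' q q' : List Bool} (h : Carries w p p')
    (h' : Carries w q q') (hi : Inc p q) : Inc p' q' :=
  inc_iff_pre.2 fun s hs => inc_iff_pre.1 hi (w⁻¹ s) ⟨h.inv.pre.2 hs.1, h'.inv.pre.2 hs.2⟩

theorem valid_of_inc {U : Clopens Y} {g : Q} {p q : List Bool} (h : Inc p q) :
    Box.Valid (⟨U, g, p, q⟩ : Box Y Q) := disjoint_cyl_word h.1 h.2 _ _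

/-- Conjugation by a permutation of words. -/
theorem mv_conj {w : Equiv.Perm Seq} {U : Clopens Y} {g : Q} {p q p' q' : List Bool}
    (hb : Box.Valid (⟨U, g, p, q⟩ : Box Y Q)) (hb' : Box.Valid (⟨U, g, p', q'⟩ : Box Y Q))
    (hp : Carries w p p') (hq : Carries w q q') :
    vPt w * mv ⟨U, g, p, q⟩ * (vPt w)⁻¹ = mv ⟨U, g, p', q'⟩ := by
  rw [mul_inv_eq_iff_eq_mul]
  ext1 z
  obtain ⟨y, s⟩ := z
  simp only [Equiv.Perm.mul_apply, vPt_apply]
  by_cases h1 : y ∈ U ∧ Pre p s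
  · obtain ⟨hy, t, rfl⟩ := h1
    rw [hp, mv_dom (b := ⟨U, g, p, q⟩) hb hy, mv_dom (b := ⟨U, g, p', q'⟩) hb' hy, vPt_apply, hq]
  by_cases h2 : y ∈ smulC g U ∧ Pre q s
  · obtain ⟨hy, t, rfl⟩ := h2
    rw [hq, mv_cod (b := ⟨U, g, p, q⟩) hb hy, mv_cod (b := ⟨U, g, p', q'⟩) hb' hy, vPt_apply, hp]
  rw [mv_out, mv_out, vPt_apply]
  · rintro (⟨hy, hs⟩ | ⟨hy, hs⟩)
    · exact h1 ⟨hy, hp.pre.1 hs⟩
    · exact h2 ⟨hy, hq.pre.1 hs⟩
  · rintro (⟨hy, hs⟩ | ⟨hy, hs⟩)
    · exact h1 ⟨hy, hs⟩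
    · exact h2 ⟨hy, hs⟩

theorem valid_child {b : Box Y Q} (h : b.Valid) (e : Bool) :
    Box.Valid (⟨b.U, b.g, b.p ++ [e], b.q ++ [e]⟩ : Box Y Q) := h.sub le_rfl [e]

theorem children_disjoint {b : Box Y Q} (h : b.Valid) :
    Disjoint (Box.supp (⟨b.U, b.g, b.p ++ [false], b.q ++ [false]⟩ : Box Y Q))
      (Box.supp (⟨b.U, b.g, b.p ++ [true], b.q ++ [true]⟩ : Box Y Q)) := by
  have hs : ∀ (U : Set Y) (p : List Bool),
      Disjoint (cyl U (p ++ [false])) (cyl U (p ++ [true])) := fun U p =>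
    disjoint_cyl_word (V.inc_siblings p).1 (V.inc_siblings p).2 _ _
  have hv : Disjoint b.dom b.cod := h
  simp only [Box.supp, Set.disjoint_union_left, Set.disjoint_union_right]
  refine ⟨⟨hs _ _, ?_⟩, ?_, hs _ _⟩
  · exact hv.symm.mono (cyl_append_subset _ _ _) (cyl_append_subset _ _ _)
  · exact hv.mono (cyl_append_subset _ _ _) (cyl_append_subset _ _ _)

theorem mv_split {b : Box Y Q} (h : b.Valid) :
    mv b = mv ⟨b.U, b.g, b.p ++ [false], b.q ++ [false]⟩ *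
      mv ⟨b.U, b.g, b.p ++ [true], b.q ++ [true]⟩ := by
  obtain ⟨U, g, p, q⟩ := b
  have h0 := valid_child h false
  have h1 := valid_child h true
  have hd := children_disjoint h
  ext1 z
  obtain ⟨y, s⟩ := z
  rw [Equiv.Perm.mul_apply]
  by_cases hdom : y ∈ U ∧ Pre p s
  · obtain ⟨hy, t, rfl⟩ := hdom
    rw [mv_dom (b := ⟨U, g, p, q⟩) h hy, V.pre_wd p t, V.pre_wd q t]
    have hm : ∀ r, ((g • y, app (q ++ [r]) (sdrop 1 t)) : Pt Y) ∈
        Box.supp (⟨U, g, p ++ [r], q ++ [r]⟩ : Box Y Q) :=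
      fun r => Or.inr (mk_mem_cyl (smul_mem_smulC hy) _)
    rcases Bool.eq_false_or_eq_true (t 0) with e | e <;> rw [e]
    · rw [mv_dom (b := ⟨U, g, p ++ [true], q ++ [true]⟩) h1 hy,
        mv_out (Set.disjoint_right.1 hd (hm true))]
    · rw [mv_out (b := ⟨U, g, p ++ [true], q ++ [true]⟩), mv_dom (b := ⟨U, g, p ++ [false], q ++ [false]⟩) h0 hy]
      exact Set.disjoint_left.1 hd (Or.inl (mk_mem_cyl hy _))
  by_cases hcod : y ∈ smulC g U ∧ Pre q s
  · obtain ⟨hy, t, rfl⟩ := hcod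
    rw [mv_cod (b := ⟨U, g, p, q⟩) h hy, V.pre_wd p t, V.pre_wd q t]
    have hm : ∀ r, ((g⁻¹ • y, app (p ++ [r]) (sdrop 1 t)) : Pt Y) ∈
        Box.supp (⟨U, g, p ++ [r], q ++ [r]⟩ : Box Y Q) :=
      fun r => Or.inl (mk_mem_cyl (show g⁻¹ • y ∈ U from hy) _)
    rcases Bool.eq_false_or_eq_true (t 0) with e | e <;> rw [e]
    · rw [mv_cod (b := ⟨U, g, p ++ [true], q ++ [true]⟩) h1 hy,
        mv_out (Set.disjoint_right.1 hd (hm true))]
    · rw [mv_out (b := ⟨U, g, p ++ [true], q ++ [true]⟩), mv_cod (b := ⟨U, g, p ++ [false], q ++ [false]⟩) h0 hy]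
      exact Set.disjoint_left.1 hd (Or.inr (mk_mem_cyl hy _))
  have out : ∀ e, ((y, s) : Pt Y) ∉ Box.supp (⟨U, g, p ++ [e], q ++ [e]⟩ : Box Y Q) := by
    rintro e (hz | hz)
    · exact hdom (cyl_append_subset _ _ _ hz)
    · exact hcod (cyl_append_subset _ _ _ hz)
  rw [mv_out, mv_out (out true), mv_out (out false)]
  rintro (hz | hz)
  · exact hdom hz
  · exact hcod hz

theorem vPt_swp {p q : List Bool} (h : Inc p q) :
    vPt (swp h) = mv (⟨⊤, 1, p, q⟩ : Box Y Q) := by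
  have hv : Box.Valid (⟨⊤, 1, p, q⟩ : Box Y Q) := valid_of_inc h
  ext1 z
  obtain ⟨y, s⟩ := z
  rw [vPt_apply]
  by_cases h1 : Pre p s
  · obtain ⟨t, rfl⟩ := h1
    rw [swp_left, mv_dom (b := ⟨⊤, (1 : Q), p, q⟩) hv (y := y) trivial, one_smul]
  by_cases h2 : Pre q s
  · obtain ⟨t, rfl⟩ := h2
    rw [swp_right, mv_cod (b := ⟨⊤, (1 : Q), p, q⟩) hv (y := y) trivial, inv_one, one_smul]
  rw [swp_out h h1 h2, mv_out]
  rintro (⟨-, hs⟩ | ⟨-, hs⟩)
  · exact h1 hs
  · exact h2 hs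

/-- Exchanges compose around a third cone. -/
theorem mv_tri {U : Clopens Y} {g : Q} {p q z : List Bool}
    (hb : Box.Valid (⟨U, g, p, q⟩ : Box Y Q)) (hp : Inc z p) (hq : Inc z q) :
    mv (⟨U, 1, p, z⟩ : Box Y Q) * mv ⟨U, g, z, q⟩ * mv (⟨U, 1, p, z⟩ : Box Y Q) = mv ⟨U, g, p, q⟩ := by
  have h1 : Box.Valid (⟨U, 1, p, z⟩ : Box Y Q) := valid_of_inc hp.symm
  have h2 : Box.Valid (⟨U, g, z, q⟩ : Box Y Q) := valid_of_inc hq
  have hd : Disjoint (cyl (U : Set Y) p) (cyl (smulC g U : Set Y) q) := hb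
  ext1 x
  obtain ⟨y, s⟩ := x
  simp only [Equiv.Perm.mul_apply]
  by_cases c1 : y ∈ U ∧ Pre p s
  · obtain ⟨hy, t, rfl⟩ := c1
    rw [mv_dom (b := ⟨U, (1 : Q), p, z⟩) h1 hy, mv_dom (b := ⟨U, g, p, q⟩) hb hy]
    simp only [one_smul]
    rw [mv_dom (b := ⟨U, g, z, q⟩) h2 hy, mv_out]
    rintro (hz | hz)
    · exact Set.disjoint_left.1 hd hz (mk_mem_cyl (smul_mem_smulC hy) t)
    · exact inc_iff_pre.1 hq (app q t) ⟨hz.2, pre_app q t⟩
  by_cases c2 : y ∈ smulC g U ∧ Pre q s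
  · obtain ⟨hy, t, rfl⟩ := c2
    have hy' : g⁻¹ • y ∈ smulC (1 : Q) U := by rw [smulC_one]; exact hy
    rw [mv_out (b := ⟨U, (1 : Q), p, z⟩) (z := (y, app q t)), mv_cod (b := ⟨U, g, z, q⟩) h2 hy,
      mv_cod (b := ⟨U, (1 : Q), p, z⟩) h1 hy', mv_cod (b := ⟨U, g, p, q⟩) hb hy]
    · simp
    rintro (hz | hz)
    · exact Set.disjoint_left.1 hd hz (mk_mem_cyl hy t)
    · exact inc_iff_pre.1 hq (app q t) ⟨hz.2, pre_app q t⟩
  by_cases c3 : y ∈ U ∧ Pre z s
  · obtain ⟨hy, t, rfl⟩ := c3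
    have hy' : y ∈ smulC (1 : Q) U := by rw [smulC_one]; exact hy
    rw [mv_cod (b := ⟨U, (1 : Q), p, z⟩) h1 hy']
    simp only [inv_one, one_smul]
    rw [mv_out (b := ⟨U, g, z, q⟩), mv_dom (b := ⟨U, (1 : Q), p, z⟩) h1 hy, mv_out]
    · simp
    · rintro (hz | hz)
      · exact inc_iff_pre.1 hp (app z t) ⟨pre_app z t, hz.2⟩
      · exact inc_iff_pre.1 hq (app z t) ⟨pre_app z t, hz.2⟩
    · rintro (hz | hz)
      · exact inc_iff_pre.1 hp (app p t) ⟨hz.2, pre_app p t⟩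
      · exact Set.disjoint_left.1 hd (mk_mem_cyl hy t) hz
  have o1 : ((y, s) : Pt Y) ∉ Box.supp (⟨U, 1, p, z⟩ : Box Y Q) := by
    rintro (hz | ⟨hy, hz⟩)
    · exact c1 hz
    · exact c3 ⟨by simpa using hy, hz⟩
  rw [mv_out o1, mv_out (b := ⟨U, g, z, q⟩), mv_out o1, mv_out]
  · rintro (hz | hz)
    · exact c1 hz
    · exact c2 hz
  · rintro (hz | hz)
    · exact c3 hz
    · exact c2 hz

open Classical in
/-- `g` on the cone at `p`. -/
noncomputable def atc (g : Q) (p : List Bool) : Equiv.Perm (Pt Y) where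
  toFun z := if Pre p z.2 then (g • z.1, z.2) else z
  invFun z := if Pre p z.2 then (g⁻¹ • z.1, z.2) else z
  left_inv z := by
    by_cases h : Pre p z.2
    · simp [if_pos h]
    · simp [if_neg h]
  right_inv z := by
    by_cases h : Pre p z.2
    · simp [if_pos h]
    · simp [if_neg h]

omit [TopologicalSpace Y] [ContinuousConstSMul Q Y] in
theorem atc_in (g : Q) {p : List Bool} {y : Y} {s : Seq} (h : Pre p s) :
    atc g p (y, s) = (g • y, s) := if_pos h

omit [TopologicalSpace Y] [ContinuousConstSMul Q Y] in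
theorem atc_out (g : Q) {p : List Bool} {z : Pt Y} (h : ¬Pre p z.2) :
    atc g p z = z := if_neg h

omit [TopologicalSpace Y] [ContinuousConstSMul Q Y] in
theorem atc_conj (g : Q) {w : Equiv.Perm Seq} {p p' : List Bool} (h : Carries w p p') :
    vPt (Y := Y) w * atc g p * (vPt w)⁻¹ = atc g p' := by
  rw [mul_inv_eq_iff_eq_mul]
  ext1 z
  obtain ⟨y, s⟩ := z
  simp only [Equiv.Perm.mul_apply, vPt_apply]
  by_cases hs : Pre p s
  · rw [atc_in g hs, atc_in g (h.pre.2 hs), vPt_apply]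
  · rw [atc_out g (z := (y, s)) hs, atc_out g (z := (y, w s)) fun e => hs (h.pre.1 e), vPt_apply]

omit [TopologicalSpace Y] [ContinuousConstSMul Q Y] in
theorem atc_split (g : Q) (p : List Bool) :
    atc (Y := Y) g p = atc g (p ++ [false]) * atc g (p ++ [true]) := by
  ext1 z
  obtain ⟨y, s⟩ := z
  rw [Equiv.Perm.mul_apply]
  by_cases hp : Pre p s
  · obtain ⟨t, rfl⟩ := hp
    rw [atc_in g (pre_app p t)]
    have hi := V.inc_siblings p
    rw [V.pre_wd p t]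
    rcases Bool.eq_false_or_eq_true (t 0) with e | e <;> rw [e]
    · rw [atc_in g (pre_app (p ++ [true]) _), atc_out g]
      exact hi.not_pre (pre_app _ _)
    · rw [atc_out g (p := p ++ [true]) (z := (y, _)), atc_in g (pre_app (p ++ [false]) _)]
      exact hi.symm.not_pre (pre_app _ _)
  · have out : ∀ e, ¬Pre (p ++ [e]) s := fun e he => hp (he.of_prefix (List.prefix_append p [e]))
    rw [atc_out g (z := (y, s)) hp, atc_out g (p := p ++ [true]) (z := (y, s)) (out true),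
      atc_out g (z := (y, s)) (out false)]

theorem mv_diag (g : Q) {p q : List Bool} (h : Inc p q) :
    mv (⟨⊤, g, p, q⟩ : Box Y Q) * mv (⟨⊤, 1, p, q⟩ : Box Y Q) = atc g q * atc g⁻¹ p := by
  have hv : ∀ g : Q, Box.Valid (⟨⊤, g, p, q⟩ : Box Y Q) := fun g => valid_of_inc h
  ext1 z
  obtain ⟨y, s⟩ := z
  simp only [Equiv.Perm.mul_apply]
  by_cases h1 : Pre p s
  · obtain ⟨t, rfl⟩ := h1
    rw [mv_dom (b := ⟨⊤, (1 : Q), p, q⟩) (hv 1) (y := y) trivial, one_smul,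
      mv_cod (b := ⟨⊤, g, p, q⟩) (hv g) (y := y) trivial, atc_in g⁻¹ (pre_app p t), atc_out g]
    exact fun e => h.not_pre e (pre_app p t)
  by_cases h2 : Pre q s
  · obtain ⟨t, rfl⟩ := h2
    rw [mv_cod (b := ⟨⊤, (1 : Q), p, q⟩) (hv 1) (y := y) trivial, inv_one, one_smul,
      mv_dom (b := ⟨⊤, g, p, q⟩) (hv g) (y := y) trivial, atc_out g⁻¹ (z := (y, app q t)) h1,
      atc_in g (pre_app q t)]
  have o : ∀ g : Q, ((y, s) : Pt Y) ∉ Box.supp (⟨⊤, g, p, q⟩ : Box Y Q) := by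
    rintro g (⟨-, hs⟩ | ⟨-, hs⟩)
    · exact h1 hs
    · exact h2 hs
  rw [mv_out (o 1), mv_out (o g), atc_out g⁻¹ (z := (y, s)) h1, atc_out g (z := (y, s)) h2]

end Vale.Agent.P193.Bh.Depths
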