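import Vale.Agent.P193.Bh.Group.Depths.Letters
import Vale.Agent.P193.Bh.Group.Perm.Point

/-!
# P193: slots amalgamated with Thompson's group by finitely many true identities
-/

namespace Vale.Agent.P193.Bh.Depths

open TopologicalSpace
open Vale.Agent.P193.Fp
open Vale.Agent.P193.Bh.V (Seq Pre Inc swp sw sw_eq pre_app thompson swp_mem swp_out)

variable {Y Q G : Type} [TopologicalSpace Y] [Group Q] [MulAction Q Y] [ContinuousConstSMul Q Y]
  [Group G] (σ : SlotSystem Y Q G)

theorem exists_gens : ∃ T : Finset thompson, Subgroup.closure (T : Set thompson) = ⊤ := by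
  classical
  obtain ⟨n, φ, hφ, -⟩ := V.thompson_fp.out
  refine ⟨Finset.univ.image fun i => φ (FreeGroup.of i), ?_⟩
  rw [Finset.coe_image, Finset.coe_univ, Set.image_univ, show
    Set.range (fun i => φ (FreeGroup.of i)) = φ '' Set.range FreeGroup.of from Set.range_comp φ _,
    ← MonoidHom.map_closure, FreeGroup.closure_range_of, ← MonoidHom.range_eq_map,
    MonoidHom.range_eq_top.2 hφ]

/-- Generators of Thompson's group. -/
noncomputable def vgens : Finset thompson := exists_gens.choose

theorem vgens_spec : Subgroup.closure (vgens : Set thompson) = ⊤ := exists_gens.choose_spec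

/-- The free product. -/
abbrev Free (G : Type) [Group G] : Type := Monoid.Coprod G thompson

/-- Its action on points. -/
noncomputable def phi : Free G →* Equiv.Perm (Pt Y) :=
  Monoid.Coprod.lift σ.toPerm (vPt.comp thompson.subtype)

open Classical in
/-- A permutation of words in the free product. -/
noncomputable def iv (x : Equiv.Perm Seq) : Free G :=
  if h : x ∈ thompson then Monoid.Coprod.inr ⟨x, h⟩ else 1

omit [Group G] in
theorem iv_eq {x : Equiv.Perm Seq} [Group G] (h : x ∈ thompson) :
    iv (G := G) x = Monoid.Coprod.inr ⟨x, h⟩ := dif_pos h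

theorem phi_inl (x : G) : phi σ (Monoid.Coprod.inl x) = σ.toPerm x :=
  Monoid.Coprod.lift_apply_inl _ _ x

theorem phi_iv {x : Equiv.Perm Seq} (h : x ∈ thompson) : phi σ (iv x) = vPt x := by
  rw [iv_eq h, phi, Monoid.Coprod.lift_apply_inr]; rfl

/-- Two long incomparable words. -/
def Wide (p q : List Bool) : Prop := 3 ≤ p.length ∧ 3 ≤ q.length ∧ Inc p q

theorem Wide.symm {p q : List Bool} (h : Wide p q) : Wide q p := ⟨h.2.1, h.1, h.2.2.symm⟩

open Classical in
/-- A permutation carrying the first two parents to `p` and `q`. -/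
noncomputable def wit (p q : List Bool) : Equiv.Perm Seq :=
  if h : ∃ w ∈ thompson, Carries w (par 0) p ∧ Carries w (par 1) q then h.choose else 1

theorem wit_spec {p q : List Bool} (h : Wide p q) :
    wit p q ∈ thompson ∧ Carries (wit p q) (par 0) p ∧ Carries (wit p q) (par 1) q := by
  have hex : ∃ w ∈ thompson, Carries w (par 0) p ∧ Carries w (par 1) q := by
    obtain ⟨w, hw, hc⟩ := exists_wit (L := [p, q]) (by simp) (by simp [h.2.2]) (by simp [h.1, h.2.1])
    exact ⟨w, hw, hc 0 (by simp), hc 1 (by simp)⟩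
  rw [wit, dif_pos hex]
  exact hex.choose_spec

/-- The exchange of two long incomparable cones, in the free product. -/
noncomputable def preC (U : Clopens Y) (g : Q) (p q : List Bool) : Free G :=
  iv (wit p q) * Monoid.Coprod.inl (el5 σ U g (par 0) (par 1)) * (iv (wit p q))⁻¹

theorem phi_preC {U : Clopens Y} {g : Q} {p q : List Bool} (h : Wide p q) :
    phi σ (preC σ U g p q) = mv ⟨U, g, p, q⟩ := by
  obtain ⟨hw, h0, h1⟩ := wit_spec h
  rw [preC, map_mul, map_mul, map_inv, phi_iv σ hw, phi_inl,
    toPerm_el5 σ (par_length 0) (par_length 1) (par_ne (by omega) (by omega) (by omega))]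
  exact mv_conj (valid_of_inc (inc_par (by omega) (by omega) (by omega))) (valid_of_inc h.2.2) h0 h1

/-- The nine children on which the key identity is imposed. -/
def src (n : Fin 9) : Child := ch (par (n.val / 2)) (n.val % 2 == 1)

theorem src_inj : Function.Injective src := fun a b h => by
  obtain ⟨h1, h2⟩ := chPar_inj (by omega) (by omega) h
  apply Fin.ext
  have : a.val % 2 = b.val % 2 := by
    rcases Nat.mod_two_eq_zero_or_one a.val with h | h <;>
      rcases Nat.mod_two_eq_zero_or_one b.val with h' | h' <;> simp_all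
  omega

/-- Their images. -/
def tgt (n : Fin 9) : List Bool := par (16 + n.val)

/-- The set of the nine children. -/
def nine : Finset Child := Finset.univ.image src

theorem nine_card : nine.card = 9 := by
  rw [nine, Finset.card_image_of_injective _ src_inj]; simp

theorem exists_key : ∃ v ∈ thompson, ∀ n : Fin 9, Carries v (src n).word (tgt n) := by
  obtain ⟨v, hv, hc, -⟩ := exists_move ((List.finRange 9).map fun n => ((src n).word, tgt n))
    (by
      rw [List.map_map, List.pairwise_map]
      exact (List.nodup_finRange 9).imp fun hne => inc_child (src_inj.ne hne))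
    (by
      rw [List.map_map, List.pairwise_map]
      exact (List.nodup_finRange 9).imp fun {a b} hne =>
        inc_par (by omega) (by omega) fun e => hne (Fin.ext (by omega)))
    (by
      simp only [List.mem_map, List.mem_finRange, true_and, forall_exists_index,
        forall_apply_eq_imp_iff]
      intro a b
      rw [src, word_ch (par_length _), tgt]
      simpa using (inc_par (i := a.val / 2) (j := 16 + b.val) (by omega) (by omega) (by omega)).append
        [a.val % 2 == 1] [])
  exact ⟨v, hv, fun n => hc (_, _) (List.mem_map.2 ⟨n, List.mem_finRange n, rfl⟩)⟩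

/-- The permutation of the key identity. -/
noncomputable def keyV : Equiv.Perm Seq := exists_key.choose

theorem keyV_mem : keyV ∈ thompson := exists_key.choose_spec.1

theorem keyV_carries (n : Fin 9) : Carries keyV (src n).word (tgt n) :=
  exists_key.choose_spec.2 n

theorem exists_half (e : Bool) :
    ∃ π : Equiv.Perm Child, ∀ n : Fin 9, π (src n) = ch (tgt n) e := by
  classical
  have hd : Function.Injective fun n : Fin 9 => ch (tgt n) e := fun a b h => by
    have := (chPar_inj (i := 16 + a.val) (j := 16 + b.val) (by omega) (by omega) h).1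
    exact Fin.ext (by omega)
  let f : {x : Child // x ∈ Set.range src} ≃ {x : Child // x ∈ Set.range fun n => ch (tgt n) e} :=
    (Equiv.ofInjective src src_inj).symm.trans (Equiv.ofInjective _ hd)
  refine ⟨f.extendSubtype, fun n => ?_⟩
  rw [Equiv.extendSubtype_apply_of_mem _ _ ⟨n, rfl⟩]
  simp [f, Equiv.ofInjective_symm_apply src_inj]

/-- The permutations into the two halves. -/
noncomputable def half (e : Bool) : Equiv.Perm Child := (exists_half e).choose

theorem half_src (e : Bool) (n : Fin 9) : half e (src n) = ch (tgt n) e :=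
  (exists_half e).choose_spec n

/-- The right side of the key identity. -/
noncomputable def doubled (x : G) : G :=
  σ.D (half false) * x * (σ.D (half false))⁻¹ * (σ.D (half true) * x * (σ.D (half true))⁻¹)

/-- The subgroup generated by exchanges. -/
noncomputable def preM : Subgroup (Free G) :=
  Subgroup.closure {x | ∃ U g p q, Wide p q ∧ x = preC σ U g p q}

theorem atc_inv (g : Q) (p : List Bool) : atc (Y := Y) g⁻¹ p = (atc g p)⁻¹ := by
  refine eq_inv_of_mul_eq_one_left (Equiv.ext fun z => ?_)
  rw [Equiv.Perm.mul_apply]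
  by_cases h : Pre p z.2
  · obtain ⟨y, s⟩ := z
    rw [atc_in g h, atc_in g⁻¹ h, inv_smul_smul]; rfl
  · rw [atc_out g h, atc_out g⁻¹ h]; rfl

theorem exists_kapW (i : Child) (g : Q) :
    ∃ m ∈ preM σ, phi σ m = σ.toPerm (σ.kap i g) := by
  rw [← Subgroup.mem_map, toPerm_kap' σ i g]
  set K := (preM σ).map (phi σ)
  have hmv : ∀ {U : Clopens Y} {g : Q} {p q : List Bool}, Wide p q → mv ⟨U, g, p, q⟩ ∈ K := fun h =>
    ⟨_, Subgroup.subset_closure ⟨_, _, _, _, h, rfl⟩, phi_preC σ h⟩
  have hpair : ∀ {p q : List Bool}, Wide p q → atc g q * (atc g p)⁻¹ ∈ K := fun {p q} h => by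
    rw [← atc_inv, ← mv_diag g h.2.2]
    exact K.mul_mem (hmv h) (hmv h)
  obtain ⟨j, hj⟩ : ∃ j : Child, i ≠ j :=
    ⟨fun k => !i k, fun e => by have := congrFun e 0; simp at this⟩
  have hi := inc_child hj
  have hl : 3 ≤ i.word.length ∧ 3 ≤ j.word.length := by simp [word_length]
  have hc : ∀ e : Bool, atc g i.word * (atc g (i.word ++ [e]))⁻¹ ∈ K := by
    intro e
    have h1 : Wide j.word i.word := ⟨hl.2, hl.1, hi.symm⟩
    have h2 : Wide (i.word ++ [e]) j.word :=
      ⟨by simp [word_length], hl.2, by simpa using hi.append [e] []⟩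
    have := K.mul_mem (hpair h1) (hpair h2)
    simpa [mul_assoc] using this
  have hcomm : atc (Y := Y) g (i.word ++ [false]) * atc g (i.word ++ [true]) =
      atc g (i.word ++ [true]) * atc g (i.word ++ [false]) :=
    commute_of_fix (M := {z | Pre (i.word ++ [false]) z.2}) (fun z hz => atc_out g hz)
      fun z hz => atc_out g ((V.inc_siblings _).symm.not_pre hz)
  have e0 := hc true
  have e1 := hc false
  rw [atc_split g i.word, mul_inv_cancel_right] at e0
  rw [atc_split g i.word, hcomm, mul_inv_cancel_right] at e1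
  rw [atc_split g i.word]
  exact K.mul_mem e0 e1

/-- A word of exchanges equal to a single-cone element. -/
noncomputable def kapW (i : Child) (g : Q) : Free G := (exists_kapW σ i g).choose

/-- The candidate identities. -/
noncomputable def cand : Set (Free G) :=
  {r | ∃ x ∈ letters σ Finset.univ, ∃ t ∈ offGens vgens,
      r = Monoid.Coprod.inl x * iv t * (Monoid.Coprod.inl x)⁻¹ * (iv t)⁻¹} ∪
  {r | ∃ a b : Child, r = (Monoid.Coprod.inl (σ.D (Equiv.swap a b)))⁻¹ * iv (sw a.word b.word)} ∪
  {(Monoid.Coprod.inl (el5 σ ⊤ 1 (par 0) (par 1)))⁻¹ * iv (sw (par 0) (par 1))} ∪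
  {r | ∃ x ∈ letters σ Finset.univ,
      r = iv keyV * Monoid.Coprod.inl x * (iv keyV)⁻¹ * (Monoid.Coprod.inl (doubled σ x))⁻¹} ∪
  {r | ∃ i : Child, ∃ g ∈ σ.qgen, r = (Monoid.Coprod.inl (σ.kap i g))⁻¹ * kapW σ i g}

theorem cand_finite : (cand σ).Finite := by
  classical
  refine ((((?_ : Set.Finite _).union ?_).union (Set.finite_singleton _)).union ?_).union ?_
  · refine (((letters_finite σ).prod (offGens_finite vgens)).image fun z =>
      Monoid.Coprod.inl z.1 * iv z.2 * (Monoid.Coprod.inl z.1)⁻¹ * (iv z.2)⁻¹).subset ?_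
    rintro r ⟨x, hx, t, ht, rfl⟩
    exact ⟨(x, t), ⟨hx, ht⟩, rfl⟩
  · refine (Set.finite_range fun z : Child × Child =>
      (Monoid.Coprod.inl (σ.D (Equiv.swap z.1 z.2)))⁻¹ * iv (sw z.1.word z.2.word)).subset ?_
    rintro r ⟨a, b, rfl⟩
    exact ⟨(a, b), rfl⟩
  · refine ((letters_finite σ).image fun x =>
      iv keyV * Monoid.Coprod.inl x * (iv keyV)⁻¹ * (Monoid.Coprod.inl (doubled σ x))⁻¹).subset ?_
    rintro r ⟨x, hx, rfl⟩
    exact ⟨x, hx, rfl⟩
  · refine ((((Finset.univ : Finset Child) ×ˢ σ.qgen).finite_toSet).image fun z =>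
      (Monoid.Coprod.inl (σ.kap z.1 z.2))⁻¹ * kapW σ z.1 z.2).subset ?_
    rintro r ⟨i, g, hg, rfl⟩
    exact ⟨(i, g), by simp [hg], rfl⟩

/-- The true candidates. -/
noncomputable def rels : Set (Free G) := {r | r ∈ cand σ ∧ phi σ r = 1}

/-- The group of boxes of all lengths. -/
abbrev Gr : Type := Free G ⧸ Subgroup.normalClosure (rels σ)

theorem gr_fp (hG : Group.IsFinitelyPresented G) : Group.IsFinitelyPresented (Gr σ) :=
  haveI := hG
  haveI := V.thompson_fp
  Group.IsFinitelyPresented.quotient _ ⟨rels σ, (cand_finite σ).subset fun _ h => h.1, rfl⟩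

/-- Slots in the group. -/
noncomputable def io : G →* Gr σ := (QuotientGroup.mk' _).comp Monoid.Coprod.inl

/-- Thompson's group in the group. -/
noncomputable def th (x : Equiv.Perm Seq) : Gr σ := QuotientGroup.mk' _ (iv x)

theorem th_mul {x y : Equiv.Perm Seq} (hx : x ∈ thompson) (hy : y ∈ thompson) :
    th σ (x * y) = th σ x * th σ y := by
  rw [th, th, th, iv_eq hx, iv_eq hy, iv_eq (thompson.mul_mem hx hy), ← map_mul, ← map_mul]
  rfl

theorem th_one : th σ 1 = 1 := by
  rw [th, iv_eq thompson.one_mem]
  exact (congrArg _ (map_one Monoid.Coprod.inr)).trans (map_one _)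

theorem th_inv {x : Equiv.Perm Seq} (hx : x ∈ thompson) : th σ x⁻¹ = (th σ x)⁻¹ := by
  rw [th, th, iv_eq hx, iv_eq (thompson.inv_mem hx), ← map_inv, ← map_inv]
  rfl

/-- The action on points. -/
noncomputable def act : Gr σ →* Equiv.Perm (Pt Y) :=
  QuotientGroup.lift _ (phi σ) (Subgroup.normalClosure_le_normal fun r hr => hr.2)

theorem act_io (x : G) : act σ (io σ x) = σ.toPerm x := phi_inl σ x

theorem act_th {x : Equiv.Perm Seq} (h : x ∈ thompson) : act σ (th σ x) = vPt x := phi_iv σ h

theorem holds {r : Free G} (h : r ∈ cand σ) (h1 : phi σ r = 1) :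
    QuotientGroup.mk' (Subgroup.normalClosure (rels σ)) r = 1 :=
  (QuotientGroup.eq_one_iff r).2 (Subgroup.subset_normalClosure ⟨h, h1⟩)

end Vale.Agent.P193.Bh.Depths
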